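import Vale.Agent.P146.H676.PsM
import Vale.Agent.P146.H325.Sk

/-!
# P146: module (B) of the lower half (helper676)

`F = lz k S` for a family `S` which is invariant under a transitive group of sign changes, in
particular `S = SkS`. For `0 < x < b < 1` and `P T = PP x b √(1 - T) √T F`,
`Θ T = Ps x b √(1 - T) √T F D`:
* `PT_conc`: `P` is concave on `[0, 1]`;
* `PT_anti`: `Θ` is nonincreasing on `(0, 1]`;
* `PT_ge`, `PT_le`: `(b - x)/2 (T - T') Θ T ≤ P T - P T' ≤ (b - x)/2 (T - T') Θ T'`, `T' ≤ T`.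
-/

open MeasureTheory ProbabilityTheory

namespace Vale.Agent.P146.H676

open Vale.Agent.P146 Vale.Agent.P146.H329 Vale.Agent.P146.U Vale.Agent.P146.H425
open Vale.Agent.P146.H329.GA (Gg chi_pm sp_mul unit_mul_self)
open Vale.Agent.P146.H332 (lz cv_lz)

set_option linter.unusedSectionVars false

/-- the spin products of the SK model are invariant under the flips -/
lemma gg_SkS (n : ℕ) : Gg (fun (σ : Fin n → ℤˣ) (e : Pair n) => H325.SkS e σ)
    (fun (σ : Fin n → ℤˣ) (e : Pair n) => H325.SkS e σ) 1 := by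
  refine ⟨fun s => ?_⟩
  have q0 : ∀ e : Pair n, H325.SkS e s = 1 ∨ H325.SkS e s = -1 := by
    intro e
    unfold H325.SkS H325.sp
    rcases Int.units_eq_one_or (s e.1.1) with h | h <;>
      rcases Int.units_eq_one_or (s e.1.2) with h' | h' <;> rw [h, h'] <;> norm_num
  have q1 : ∀ (τ : Fin n → ℤˣ) (e : Pair n), H325.SkS e (Equiv.mulLeft s τ) =
      H325.SkS e s * H325.SkS e τ := by
    intro τ e
    unfold H325.SkS H325.sp
    simp only [Equiv.coe_mulLeft, Pi.mul_apply, Units.val_mul, Int.cast_mul]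
    ring
  refine ⟨Equiv.mulLeft s, fun e => H325.SkS e s, fun e => H325.SkS e s, ?_, ?_, q0, q0, q1, q1⟩
  · simp
  · simp [unit_mul_self]

variable {ι X : Type} [Fintype ι] [DecidableEq ι] [Fintype X] [Nonempty X] {k : ℝ} {S : ι → X → ℝ}
  {x0 : X} {x b B L : ℝ} {D : ι → (ι → ℝ) → ℝ}

/-- **(B1) concavity in the share of the inner level** -/
theorem PT_conc (hg : Gg (fun x e => S e x) (fun x e => S e x) x0) (hk : 0 ≤ k)
    (hx : 0 < x) (hxb : x < b) (hb : b < 1) :
    ConcaveOn ℝ (Set.Icc 0 1) fun T => PP x b (√(1 - T)) (√T) (lz k S) := by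
  have h := PP_concave (k := k) (v := 1) hg hk hx hxb hb
  refine ⟨convex_Icc 0 1, fun T hT T' hT' α β hα hβ hαβ => ?_⟩
  have m : ∀ {T : ℝ}, T ∈ Set.Icc (0 : ℝ) 1 → 1 - T ∈ Set.Icc (0 : ℝ) 1 := fun hT =>
    ⟨by linarith [hT.2], by linarith [hT.1]⟩
  have h1 := h.2 (m hT) (m hT') hα hβ hαβ
  have e : α • (1 - T) + β • (1 - T') = 1 - (α • T + β • T') := by
    simp only [smul_eq_mul]
    linear_combination hαβ
  rw [e] at h1
  simp only [sub_sub_cancel] at h1
  exact h1

/-- **(B2) the mean squared gradient is nonincreasing in the share of the inner level** -/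
theorem PT_anti (hg : Gg (fun x e => S e x) (fun x e => S e x) x0) (hk : 0 ≤ k)
    (h : C11 (lz k S) D B L) (hx : 0 < x) (hxb : x < b) (hb : b < 1) {T T' : ℝ} (hT' : 0 < T')
    (hTT : T' ≤ T) (hT : T ≤ 1) :
    Ps x b (√(1 - T)) (√T) (lz k S) D ≤ Ps x b (√(1 - T')) (√T') (lz k S) D := by
  have h1 := Pst_mono (v := 1) h (cv_lz k S) hx hxb (PP_concave hg hk hx hxb hb)
    (t := 1 - T) (t' := 1 - T') (by linarith) (by linarith) (by linarith)
  unfold Pst at h1
  simp only [sub_sub_cancel] at h1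
  exact h1

/-- **(B3) lower bound of the increment** -/
theorem PT_ge (hg : Gg (fun x e => S e x) (fun x e => S e x) x0) (hk : 0 ≤ k)
    (h : C11 (lz k S) D B L) (hx : 0 < x) (hxb : x < b) (hb : b < 1) {T T' : ℝ} (hT' : 0 ≤ T')
    (hTT : T' ≤ T) (hT : T ≤ 1) :
    (b - x) / 2 * (T - T') * Ps x b (√(1 - T)) (√T) (lz k S) D ≤
      PP x b (√(1 - T)) (√T) (lz k S) - PP x b (√(1 - T')) (√T') (lz k S) := by
  have h1 := Pt_ge (v := 1) h (cv_lz k S) hx hxb (PP_concave hg hk hx hxb hb)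
    (t := 1 - T) (t' := 1 - T') (by linarith) (by linarith) (by linarith)
  unfold Pst Pt at h1
  simp only [sub_sub_cancel] at h1
  refine le_trans (le_of_eq ?_) h1
  ring

/-- **(B4) upper bound of the increment** -/
theorem PT_le (hg : Gg (fun x e => S e x) (fun x e => S e x) x0) (hk : 0 ≤ k)
    (h : C11 (lz k S) D B L) (hx : 0 < x) (hxb : x < b) (hb : b < 1) {T T' : ℝ} (hT' : 0 < T')
    (hTT : T' ≤ T) (hT : T ≤ 1) :
    PP x b (√(1 - T)) (√T) (lz k S) - PP x b (√(1 - T')) (√T') (lz k S) ≤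
      (b - x) / 2 * (T - T') * Ps x b (√(1 - T')) (√T') (lz k S) D := by
  have h1 := Pt_le (v := 1) h (cv_lz k S) hx hxb (PP_concave hg hk hx hxb hb)
    (t := 1 - T) (t' := 1 - T') (by linarith) (by linarith) (by linarith)
  unfold Pst Pt at h1
  simp only [sub_sub_cancel] at h1
  refine h1.trans (le_of_eq ?_)
  ring

end Vale.Agent.P146.H676
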