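import Vale.Agent.P146.H676.Rem5
import Vale.Agent.P146.U.Ex1b
import Vale.Agent.P146.H332.Fe

/-!
# P146: the two-level functional `PP` is concave in the switching time (helper676)

`PP y m c s (lz k S) = (1 / y) log (M2 ..)`, hence `t ↦ PP y m √t √(v - t) (lz k S)` is concave on
`[0, v]` for `0 < y < m < 1`, for every family invariant under a transitive group of sign changes.
-/

open MeasureTheory ProbabilityTheory

namespace Vale.Agent.P146.H676

open Vale.Agent.P146 Vale.Agent.P146.H501 Vale.Agent.P146.H329 Vale.Agent.P146.U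
open Vale.Agent.P146.H329.GA (Gg)
open Vale.Agent.P146.H332 (lz)
open Vale.Agent.P146.H325 (Zp ez Zp_pos)
open Vale.Agent.P146.H425 (W)

set_option linter.unusedSectionVars false

variable {ι X : Type} [Fintype ι] [DecidableEq ι] [Fintype X] [Nonempty X] {k : ℝ} {S : ι → X → ℝ}

lemma fu_const {k c : ℝ} (hk : 0 ≤ k * c) (a : X → ι → ℝ) (x : X) (i : ι) :
    fu a (fun _ => (k * c) ^ 2) x i = k * c * a x i := by
  unfold fu
  rw [Real.sqrt_sq hk]

lemma Z2_eq {c s : ℝ} (hc : 0 ≤ k * c) (hs : 0 ≤ k * s) (K f : ι → ℝ) :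
    Z2 (fun x e => S e x) (fun _ => (k * c) ^ 2) (fun _ => (k * s) ^ 2) K f =
      Zp k S (c • K + s • f) := by
  unfold Z2 Zp ez
  refine Finset.sum_congr rfl fun x _ => ?_
  congr 1
  simp only [fu_const hc, fu_const hs, Pi.add_apply, Pi.smul_apply, smul_eq_mul]
  rw [← Finset.sum_add_distrib, Finset.mul_sum]
  refine Finset.sum_congr rfl fun i _ => ?_
  ring

/-- **the two-level functional is the logarithm of the two-level moment** -/
theorem PP_eq {y m c s : ℝ} (hy : 0 < y) (hm : 0 < m) (hc : 0 ≤ k * c) (hs : 0 ≤ k * s) :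
    PP y m c s (lz k S) = 1 / y * Real.log (M2 (fun x e => S e x) (fun _ => (k * c) ^ 2)
      (fun _ => (k * s) ^ 2) y m) := by
  have h1 : ∀ K : ι → ℝ, ∫ f, Real.exp (m * lz k S (c • K + s • f)) ∂(P157.Lv.gI ι) =
      G2 (fun x e => S e x) (fun _ => (k * c) ^ 2) (fun _ => (k * s) ^ 2) m K := by
    intro K
    unfold G2
    refine integral_congr_ae (Filter.Eventually.of_forall fun f => ?_)
    simp only
    rw [Z2_eq hc hs, Real.rpow_def_of_pos (Zp_pos k S _)]
    congr 1
    unfold lz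
    ring
  have h2 : ∀ K : ι → ℝ, Real.exp (y * W m s (lz k S) (0 + c • K)) =
      G2 (fun x e => S e x) (fun _ => (k * c) ^ 2) (fun _ => (k * s) ^ 2) m K ^ (y / m) := by
    intro K
    have hG := G2_pos (fun x e => S e x) (fun _ => (k * c) ^ 2) (fun _ => (k * s) ^ 2) m K
    unfold H425.W
    rw [zero_add, h1 K, Real.rpow_def_of_pos hG]
    congr 1
    ring
  unfold PP M2
  rw [H425.W]
  congr 2
  refine integral_congr_ae (Filter.Eventually.of_forall fun K => ?_)
  exact h2 K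

/-- **CONCAVITY of the two-level functional in the switching time** -/
theorem PP_concave {x0 : X} (hg : Gg (fun x e => S e x) (fun x e => S e x) x0) (hk : 0 ≤ k)
    {y m v : ℝ} (hy : 0 < y) (hym : y < m) (hm1 : m < 1) :
    ConcaveOn ℝ (Set.Icc 0 v) fun t => PP y m (√t) (√(v - t)) (lz k S) := by
  have hm := hy.trans hym
  refine ⟨convex_Icc 0 v, fun t ht t' ht' α β hα hβ hαβ => ?_⟩
  have key : ∀ t, t ∈ Set.Icc 0 v → PP y m (√t) (√(v - t)) (lz k S) = 1 / y * Real.log
      (M2 (fun x e => S e x) (fun _ : ι => k ^ 2 * t) (fun _ : ι => k ^ 2 * (v - t)) y m) := by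
    intro t ht
    rw [PP_eq hy hm (mul_nonneg hk (Real.sqrt_nonneg _)) (mul_nonneg hk (Real.sqrt_nonneg _)),
      mul_pow, mul_pow, Real.sq_sqrt ht.1, Real.sq_sqrt (by linarith [ht.2])]
  have hmem : α • t + β • t' ∈ Set.Icc 0 v := convex_Icc 0 v ht ht' hα hβ hαβ
  simp only
  rw [key t ht, key t' ht', key _ hmem]
  have hp : ∀ t, t ∈ Set.Icc 0 v →
      ((fun _ : ι => k ^ 2 * t), fun _ : ι => k ^ 2 * (v - t)) ∈ Qs ι := fun t ht =>
    ⟨fun _ => mul_nonneg (sq_nonneg k) ht.1, fun _ => mul_nonneg (sq_nonneg k) (by linarith [ht.2])⟩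
  have h := (conc_two hg hy hym hm1).2 (hp t ht) (hp t' ht') hα hβ hαβ
  have e : (α • (((fun _ : ι => k ^ 2 * t), fun _ : ι => k ^ 2 * (v - t)) :
      (ι → ℝ) × (ι → ℝ)) + β • ((fun _ : ι => k ^ 2 * t'), fun _ : ι => k ^ 2 * (v - t'))) =
      ((fun _ : ι => k ^ 2 * (α • t + β • t')), fun _ : ι => k ^ 2 * (v - (α • t + β • t'))) := by
    ext i
    · simp only [Prod.fst_add, Prod.smul_fst, Pi.add_apply, Pi.smul_apply, smul_eq_mul]
      ring
    · simp only [Prod.snd_add, Prod.smul_snd, Pi.add_apply, Pi.smul_apply, smul_eq_mul]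
      linear_combination k ^ 2 * v * hαβ
  rw [e] at h
  simp only [smul_eq_mul] at h ⊢
  have h2 := mul_le_mul_of_nonneg_left h (show 0 ≤ 1 / y by positivity)
  linarith

end Vale.Agent.P146.H676
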