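import Vale.Agent.P146.H676.Pp

/-!
# P146: the mean squared gradient at the switching time is monotone (helper676)

If `t ↦ PP x b √t √(v - t) F` is concave on `[0, v]`, then `t ↦ Ps x b √t √(v - t) F D` is
nondecreasing on `[0, v)`.
-/

open MeasureTheory ProbabilityTheory

namespace Vale.Agent.P146.U

open Vale.Agent.P157.Lv Vale.Agent.P146.H425 Vale.Agent.P146.R1

set_option linter.unusedSectionVars false
set_option linter.unusedVariables false

variable {κ : Type} [Fintype κ] {U U' F X : (κ → ℝ) → ℝ} {D : κ → (κ → ℝ) → ℝ}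
  {B L x s a b b' c r : ℝ} {φ ψ : (κ → ℝ) → ℝ}

/-- the mean of the gradient over a small layer is close to the gradient -/
theorem DW_near (hb : 0 < b) (hB : 0 ≤ B) (hL : 0 ≤ L) : ∃ C : ℝ, 0 ≤ C ∧
    ∀ (X : (κ → ℝ) → ℝ) (D : κ → (κ → ℝ) → ℝ), C11 X D B L → ∀ r, 0 ≤ r → r ≤ 1 → ∀ e y,
      |DW b r X D e y - D e y| ≤ C * r := by
  set p := ∫ z : κ → ℝ, Real.exp (b * B * ‖z‖) * ‖z‖ ∂(gI κ) with hp
  set q := ∫ z : κ → ℝ, Real.exp (-(b * B) * ‖z‖) ∂(gI κ) with hq
  have ep : EG fun z : κ → ℝ => Real.exp (b * B * ‖z‖) * ‖z‖ := (eg_exp_norm _).mul eg_norm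
  have eq' : EG fun z : κ → ℝ => Real.exp (-(b * B) * ‖z‖) := eg_exp_norm _
  have hp0 : 0 ≤ p := integral_nonneg fun z => by positivity
  have hq0 : 0 < q := integral_exp_pos eq'.integrable
  refine ⟨6 * L * (p / q), by positivity, fun X D h r hr hr1 e y => ?_⟩
  have hl := h.lip.lip h.B0
  have hd := den_pos hl b r y
  have eX : EG fun z => Real.exp (b * X (y + r • z)) := Lip.egx hl y r b
  have hbd : ∀ z, |X (y + r • z) - X y| ≤ B * ‖z‖ := by
    intro z
    refine (h.lip y (r • z)).trans ?_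
    rw [norm_smul, Real.norm_eq_abs, abs_of_nonneg hr]
    refine mul_le_mul_of_nonneg_left ?_ hB
    exact mul_le_of_le_one_left (norm_nonneg _) hr1
  have h4 : Real.exp (b * X y) * q ≤ ∫ z, Real.exp (b * X (y + r • z)) ∂(gI κ) := by
    rw [hq, ← integral_const_mul]
    refine integral_mono (eq'.integrable.const_mul _) eX.integrable fun z => ?_
    simp only
    rw [← Real.exp_add]
    refine Real.exp_le_exp.2 ?_
    have := mul_le_mul_of_nonneg_left (abs_le.1 (hbd z)).1 hb.le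
    linarith
  have h1 : DW b r X D e y - D e y = Mn b r X (fun w => D e w - D e y) y := by
    rw [Mn_sub hl (h.eg_D e) (EG.const _), Mn_const hl]
    rfl
  rw [h1]
  unfold Mn
  rw [abs_div, abs_of_pos hd, div_le_iff₀ hd]
  refine abs_integral_le_integral_abs.trans ?_
  have h5 : ∫ z, |Real.exp (b * X (y + r • z)) * (D e (y + r • z) - D e y)| ∂(gI κ) ≤
      ∫ z, (6 * L * r * Real.exp (b * X y)) * (Real.exp (b * B * ‖z‖) * ‖z‖) ∂(gI κ) := by
    refine integral_mono (eg_num hl ((h.eg_D e).sub (EG.const _)) b r y).integrable.abs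
      (ep.integrable.const_mul _) fun z => ?_
    simp only
    rw [abs_mul, abs_of_pos (Real.exp_pos _)]
    have i1 := h.grad_lip e y (r • z)
    rw [norm_smul, Real.norm_eq_abs, abs_of_nonneg hr] at i1
    have i2 : Real.exp (b * X (y + r • z)) ≤ Real.exp (b * X y) * Real.exp (b * B * ‖z‖) := by
      rw [← Real.exp_add]
      refine Real.exp_le_exp.2 ?_
      have := mul_le_mul_of_nonneg_left (abs_le.1 (hbd z)).2 hb.le
      linarith
    refine (mul_le_mul i2 i1 (abs_nonneg _) (by positivity)).trans (le_of_eq (by ring))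
  rw [integral_const_mul, ← hp] at h5
  refine h5.trans ?_
  have h6 : (6 * L * (p / q) * r) * (Real.exp (b * X y) * q) =
      6 * L * r * Real.exp (b * X y) * p := by
    field_simp
  rw [← h6]
  exact mul_le_mul_of_nonneg_left h4 (by positivity)

/-- the squared gradient over a small layer -/
theorem G2_near (hb : 0 < b) (hB : 0 ≤ B) (hL : 0 ≤ L) : ∃ C : ℝ, 0 ≤ C ∧
    ∀ (X : (κ → ℝ) → ℝ) (D : κ → (κ → ℝ) → ℝ), C11 X D B L → ∀ r, 0 ≤ r → r ≤ 1 → ∀ y,
      |G2 b r X D y - ∑ e, D e y ^ 2| ≤ C * r := by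
  obtain ⟨C, hC, hn⟩ := DW_near (κ := κ) hb hB hL
  refine ⟨Fintype.card κ * (C * (2 * B)), by positivity, fun X D h r hr hr1 y => ?_⟩
  unfold G2
  rw [← Finset.sum_sub_distrib]
  refine (Finset.abs_sum_le_sum_abs _ _).trans ?_
  refine (Finset.sum_le_card_nsmul _ _ (C * (2 * B) * r) fun e _ => ?_).trans
    (le_of_eq (by rw [nsmul_eq_mul, Finset.card_univ]; ring))
  have h1 := hn X D h r hr hr1 e y
  have h2 := h.bd e y
  have h3 := (h.W' hb r).bd e y
  have e1 : DW b r X D e y ^ 2 - D e y ^ 2 =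
      (DW b r X D e y - D e y) * (DW b r X D e y + D e y) := by ring
  rw [e1, abs_mul]
  have h4 : |DW b r X D e y + D e y| ≤ 2 * B := (abs_add_le _ _).trans (by linarith)
  refine (mul_le_mul h1 h4 (abs_nonneg _) (by positivity)).trans (le_of_eq (by ring))

/-- comparison of the means under two close laws -/
lemma Mn_cmp (h : Lip U) (h' : Lip U') (hx : 0 < x) {δ : ℝ} (h1 : ∀ w, U w ≤ U' w)
    (h2 : ∀ w, U' w ≤ U w + δ) (hψ : EG ψ) (hψ0 : ∀ w, 0 ≤ ψ w) (c : ℝ) (y : κ → ℝ) :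
    Real.exp (-(x * δ)) * Mn x c U' ψ y ≤ Mn x c U ψ y := by
  unfold Mn
  have hd := den_pos h x c y
  have hd' := den_pos h' x c y
  have n1 : Real.exp (-(x * δ)) * ∫ z, Real.exp (x * U' (y + c • z)) * ψ (y + c • z) ∂(gI κ) ≤
      ∫ z, Real.exp (x * U (y + c • z)) * ψ (y + c • z) ∂(gI κ) := by
    rw [← integral_const_mul]
    refine integral_mono ((eg_num h' hψ x c y).integrable.const_mul _)
      (eg_num h hψ x c y).integrable fun z => ?_
    simp only
    rw [← mul_assoc, ← Real.exp_add]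
    refine mul_le_mul_of_nonneg_right (Real.exp_le_exp.2 ?_) (hψ0 _)
    have := mul_le_mul_of_nonneg_left (h2 (y + c • z)) hx.le
    linarith
  have n2 : ∫ z, Real.exp (x * U (y + c • z)) ∂(gI κ) ≤
      ∫ z, Real.exp (x * U' (y + c • z)) ∂(gI κ) :=
    integral_mono (Lip.egx h y c x).integrable (Lip.egx h' y c x).integrable fun z =>
      Real.exp_le_exp.2 (mul_le_mul_of_nonneg_left (h1 _) hx.le)
  have n3 : 0 ≤ ∫ z, Real.exp (x * U' (y + c • z)) * ψ (y + c • z) ∂(gI κ) :=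
    integral_nonneg fun z => mul_nonneg (Real.exp_pos _).le (hψ0 _)
  rw [← mul_div_assoc]
  exact div_le_div₀ (le_trans (mul_nonneg (Real.exp_pos _).le n3) n1) n1 hd n2

/-- **One step of the switching time, lower bound.** -/
theorem PP_step_low (h : C11 F D B L) (hc : Cv F) (hx : 0 < x) (hxb : x ≤ b) :
    ∃ C : ℝ, 0 ≤ C ∧
    ∀ c' r c s s' : ℝ, 0 ≤ r → r ≤ 1 → c' ^ 2 + r ^ 2 = c ^ 2 → r ^ 2 + s ^ 2 = s' ^ 2 →
      PP x b c s F + (b - x) / 2 * r ^ 2 * (Ps x b c' s' F D - C * r) ≤ PP x b c' s' F := by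
  have hb : 0 < b := hx.trans_le hxb
  have hbx : 0 ≤ (b - x) / 2 := by linarith
  have hL0 : 0 ≤ L + 2 * b * (Fintype.card κ * B) ^ 2 := by
    have := h.L0
    positivity
  obtain ⟨C1, hC1, hn1⟩ := G2_near (κ := κ) hb h.B0 hL0
  obtain ⟨C2, hC2, hn2⟩ := G2_near (κ := κ) hx h.B0 hL0
  set M : ℝ := Fintype.card κ * B ^ 2 with hM
  have hM0 : 0 ≤ M := by positivity
  set δ1 : ℝ := (b - x) / 2 * M with hδ1
  have hδ10 : 0 ≤ δ1 := mul_nonneg hbx hM0
  refine ⟨(C1 + C2) + x * δ1 * M, by positivity, fun c' r c s s' hr hr1 hcc hss => ?_⟩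
  set X := W b s F with hX
  have hXC : C11 X (DW b s F D) B (L + 2 * b * (Fintype.card κ * B) ^ 2) := h.W' hb s
  have hXc : Cv X := Cv.W h hc hb s
  have hXl : Lip X := hXC.lip.lip h.B0
  have hWW : W b r X = W b s' F := by
    funext y
    exact W_W h.lip h.B0 hb hss y
  have hxx : PP x b c s F = W x c' (W x r X) 0 := by
    unfold PP
    exact (W_W hXC.lip h.B0 hx hcc 0).symm
  have hGG : ∀ y, G2 b r X (DW b s F D) y = G2 b s' F D y := by
    intro y
    unfold G2
    refine Finset.sum_congr rfl fun e _ => ?_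
    congr 1
    exact (DW_step h hb hss e y).symm
  -- the pointwise lower bound
  have hlow : ∀ y, W x r X y + (b - x) / 2 * r ^ 2 * G2 x r X (DW b s F D) y ≤ W b s' F y := by
    intro y
    have h1 := W_tangent (s := r) hXC hXc hx hb y
    have h2 := Kc_ge (s := r) hXC hx y
    rw [hWW] at h1
    have h3 : (b - x) / x ^ 2 * (x ^ 2 / 2 * (r ^ 2 * G2 x r X (DW b s F D) y)) ≤
        (b - x) / x ^ 2 * Kc x r X y := mul_le_mul_of_nonneg_left h2 (by
          have : 0 ≤ b - x := by linarith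
          positivity)
    have e1 : (b - x) / x ^ 2 * (x ^ 2 / 2 * (r ^ 2 * G2 x r X (DW b s F D) y)) =
        (b - x) / 2 * r ^ 2 * G2 x r X (DW b s F D) y := by
      field_simp
    have e2 : (b - x) / x ^ 2 * Kc x r X y = (b - x) * (Kc x r X y / x ^ 2) := by ring
    rw [e1, e2] at h3
    linarith
  -- the pointwise upper bound
  have hup : ∀ y, W b s' F y ≤ W x r X y + δ1 * r ^ 2 := by
    intro y
    have h1 := W_drop (r := r) hXC hXc hx hxb y
    rw [hWW] at h1
    have h2 := Mn_le hXl hXC.eg_G2 (fun w => (G2_bd hXC w).2) b r y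
    have h3 := mul_le_mul_of_nonneg_left h2 (mul_nonneg hbx (sq_nonneg r))
    rw [hδ1]
    linarith
  have lX : Lip (W x r X) := Lip.W hXl hx r
  have lW : Lip (W b s' F) := lipW h hb s'
  have eGx : EG (G2 x r X (DW b s F D)) := eg_G2' hXC hx r
  have eG : EG (G2 b s' F D) := eg_G2' h hb s'
  have hGx0 : ∀ y, 0 ≤ G2 x r X (DW b s F D) y := fun y => (G2_bd (hXC.W' hx r) y).1
  have hle : ∀ w, W x r X w ≤ W b s' F w := fun w => by
    have := hlow w
    have h2 := mul_nonneg (mul_nonneg hbx (sq_nonneg r)) (hGx0 w)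
    linarith
  have k1 := W_tan_ge lX lW hx (eGx.const_mul ((b - x) / 2 * r ^ 2)) hlow c' 0
  rw [Mn_const_mul] at k1
  have k2 := Mn_cmp lX lW hx hle hup eGx hGx0 c' 0
  -- comparison of the squared gradients
  have k3 : Ps x b c' s' F D - (C1 + C2) * r ≤
      Mn x c' (W b s' F) (G2 x r X (DW b s F D)) 0 := by
    have k4 : Mn x c' (W b s' F) (fun w => G2 b s' F D w - (C1 + C2) * r) 0 ≤
        Mn x c' (W b s' F) (G2 x r X (DW b s F D)) 0 := by
      refine Mn_mono lW (eG.sub (EG.const _)) eGx (fun w => ?_) x c' 0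
      have i1 := hn1 X _ hXC r hr hr1 w
      have i2 := hn2 X _ hXC r hr hr1 w
      rw [hGG] at i1
      have i3 := (abs_le.1 i1).2
      have i4 := (abs_le.1 i2).1
      linarith
    rw [Mn_sub lW eG (EG.const _), Mn_const lW] at k4
    exact k4
  have hPs : Ps x b c' s' F D ≤ M := Ps_le h hb fun w => (G2_bd h w).2
  have hPs0 : 0 ≤ Ps x b c' s' F D := Ps_nonneg h hb
  have k5 : (1 - x * (δ1 * r ^ 2)) ≤ Real.exp (-(x * (δ1 * r ^ 2))) := by
    have := Real.add_one_le_exp (-(x * (δ1 * r ^ 2)))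
    linarith
  have k6 : Ps x b c' s' F D - ((C1 + C2) + x * δ1 * M) * r ≤
      Mn x c' (W x r X) (G2 x r X (DW b s F D)) 0 := by
    set G := Mn x c' (W b s' F) (G2 x r X (DW b s F D)) 0 with hG
    have hG0 : 0 ≤ G := Mn_nonneg lW hGx0 x c' 0
    have hGM : G ≤ M := Mn_le lW eGx (fun w => (G2_bd (hXC.W' hx r) w).2) x c' 0
    have i1 : G - x * δ1 * M * r ≤ Real.exp (-(x * (δ1 * r ^ 2))) * G := by
      have j1 := mul_le_mul_of_nonneg_right k5 hG0
      have j2 : x * (δ1 * r ^ 2) * G ≤ x * δ1 * M * r := by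
        have j3 : r ^ 2 ≤ r := by nlinarith
        calc x * (δ1 * r ^ 2) * G ≤ x * (δ1 * r) * M := by gcongr
          _ = _ := by ring
      linarith
    have i2 : ((C1 + C2) + x * δ1 * M) * r = (C1 + C2) * r + x * δ1 * M * r := by ring
    rw [i2]
    linarith
  rw [hxx]
  have k7 := mul_le_mul_of_nonneg_left k6 (mul_nonneg hbx (sq_nonneg r))
  have k8 : PP x b c' s' F = W x c' (W b s' F) 0 := rfl
  rw [k8]
  linarith

/-- the two-level functional as a function of the switching time -/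
noncomputable def Pt (x b v : ℝ) (F : (κ → ℝ) → ℝ) (t : ℝ) : ℝ := PP x b (√t) (√(v - t)) F

/-- the mean squared gradient at the switching time -/
noncomputable def Pst (x b v : ℝ) (F : (κ → ℝ) → ℝ) (D : κ → (κ → ℝ) → ℝ) (t : ℝ) : ℝ :=
  Ps x b (√t) (√(v - t)) F D

/-- the slopes of the functional -/
theorem Pt_slope (h : C11 F D B L) (hc : Cv F) (hx : 0 < x) (hxb : x ≤ b) :
    ∃ C : ℝ, 0 ≤ C ∧ ∀ v t t' : ℝ, 0 ≤ t → t ≤ t' → t' ≤ v → t' - t ≤ 1 →
      (b - x) / 2 * (t' - t) * (Pst x b v F D t - C * √(t' - t)) ≤ Pt x b v F t - Pt x b v F t' ∧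
      Pt x b v F t - Pt x b v F t' ≤ (b - x) / 2 * (t' - t) * (Pst x b v F D t + C * √(t' - t)) := by
  obtain ⟨C1, hC1, h1⟩ := PP_step_low (D := D) h hc hx hxb
  obtain ⟨C2, hC2, h2⟩ := PP_step h hc hx hxb
  have hbx : 0 ≤ (b - x) / 2 := by linarith
  refine ⟨max C1 C2, le_max_of_le_left hC1, fun v t t' ht htt htv ht1 => ?_⟩
  have hr0 : 0 ≤ √(t' - t) := Real.sqrt_nonneg _
  have hr1 : √(t' - t) ≤ 1 := by rw [Real.sqrt_le_one]; exact ht1
  have e1 : √t ^ 2 + √(t' - t) ^ 2 = √t' ^ 2 := by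
    rw [Real.sq_sqrt ht, Real.sq_sqrt (by linarith), Real.sq_sqrt (by linarith)]
    ring
  have e2 : √(t' - t) ^ 2 + √(v - t') ^ 2 = √(v - t) ^ 2 := by
    rw [Real.sq_sqrt (by linarith), Real.sq_sqrt (by linarith), Real.sq_sqrt (by linarith)]
    ring
  have i1 := h1 (√t) (√(t' - t)) (√t') (√(v - t')) (√(v - t)) hr0 hr1 e1 e2
  have i2 := h2 (√t) (√(t' - t)) (√t') (√(v - t')) (√(v - t)) hr0 hr1 e1 e2
  have e3 : √(t' - t) ^ 2 = t' - t := Real.sq_sqrt (by linarith)
  rw [e3] at i1 i2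
  have hw : 0 ≤ (b - x) / 2 * (t' - t) := mul_nonneg hbx (by linarith)
  unfold Pt Pst
  constructor
  · have j1 : (b - x) / 2 * (t' - t) * (Ps x b (√t) (√(v - t)) F D - max C1 C2 * √(t' - t)) ≤
        (b - x) / 2 * (t' - t) * (Ps x b (√t) (√(v - t)) F D - C1 * √(t' - t)) := by
      refine mul_le_mul_of_nonneg_left ?_ hw
      have := mul_le_mul_of_nonneg_right (le_max_left C1 C2) hr0
      linarith
    linarith
  · have j1 : (b - x) / 2 * (t' - t) * (Ps x b (√t) (√(v - t)) F D + C2 * (t' - t)) ≤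
        (b - x) / 2 * (t' - t) * (Ps x b (√t) (√(v - t)) F D + max C1 C2 * √(t' - t)) := by
      refine mul_le_mul_of_nonneg_left ?_ hw
      have k1 : t' - t ≤ √(t' - t) := by nlinarith [e3]
      have k2 := mul_le_mul_of_nonneg_left k1 hC2
      have k3 := mul_le_mul_of_nonneg_right (le_max_right C1 C2) hr0
      linarith
    linarith

/-- **monotonicity of the mean squared gradient** -/
theorem Pst_mono (h : C11 F D B L) (hc : Cv F) (hx : 0 < x) (hxb : x < b) {v : ℝ}
    (hcc : ConcaveOn ℝ (Set.Icc 0 v) (Pt x b v F)) {t t' : ℝ} (ht : 0 ≤ t) (htt : t ≤ t')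
    (htv : t' < v) : Pst x b v F D t ≤ Pst x b v F D t' := by
  rcases htt.eq_or_lt with e | hlt
  · rw [e]
  obtain ⟨C, hC, hs⟩ := Pt_slope (D := D) h hc hx hxb.le
  have hbx : 0 < (b - x) / 2 := by linarith
  refine le_of_forall_pos_le_add fun ε hε => ?_
  -- a small step
  obtain ⟨δ, hδ, h1, h2, h3, h4⟩ : ∃ δ : ℝ, 0 < δ ∧ δ ≤ 1 ∧ t + δ ≤ t' ∧ t' + δ ≤ v ∧
      2 * C * √δ ≤ ε := by
    set δ0 : ℝ := (ε / (2 * C + 1)) ^ 2 with hδ0
    have hq : 0 < ε / (2 * C + 1) := by positivity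
    refine ⟨min (min 1 (t' - t)) (min (v - t') δ0), ?_, ?_, ?_, ?_, ?_⟩
    · refine lt_min (lt_min one_pos (by linarith)) (lt_min (by linarith) ?_)
      rw [hδ0]; positivity
    · exact (min_le_left _ _).trans (min_le_left _ _)
    · have : min (min 1 (t' - t)) (min (v - t') δ0) ≤ t' - t :=
        (min_le_left _ _).trans (min_le_right _ _)
      linarith
    · have : min (min 1 (t' - t)) (min (v - t') δ0) ≤ v - t' :=
        (min_le_right _ _).trans (min_le_left _ _)
      linarith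
    · have k1 : min (min 1 (t' - t)) (min (v - t') δ0) ≤ δ0 :=
        (min_le_right _ _).trans (min_le_right _ _)
      have k2 : √(min (min 1 (t' - t)) (min (v - t') δ0)) ≤ ε / (2 * C + 1) := by
        refine (Real.sqrt_le_sqrt k1).trans ?_
        rw [hδ0, Real.sqrt_sq hq.le]
      calc 2 * C * √(min (min 1 (t' - t)) (min (v - t') δ0)) ≤ 2 * C * (ε / (2 * C + 1)) :=
            mul_le_mul_of_nonneg_left k2 (by positivity)
        _ ≤ ε := by
            rw [← mul_div_assoc, div_le_iff₀ (by positivity)]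
            nlinarith
  have a1 := (hs v t (t + δ) ht (by linarith) (by linarith) (by linarith)).1
  have a2 := (hs v t' (t' + δ) (ht.trans htt) (by linarith) (by linarith) (by linarith)).2
  rw [add_sub_cancel_left] at a1 a2
  -- the slopes of a concave function
  have a3 : Pt x b v F t - Pt x b v F (t + δ) ≤ Pt x b v F t' - Pt x b v F (t' + δ) := by
    have m0 : t ∈ Set.Icc 0 v := ⟨ht, by linarith⟩
    have m1 : t' + δ ∈ Set.Icc 0 v := ⟨by linarith, by linarith⟩
    have hl : 0 < t' + δ - t := by linarith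
    obtain ⟨α, hα⟩ : ∃ α, α = (t' - t) / (t' + δ - t) := ⟨_, rfl⟩
    obtain ⟨β, hβ⟩ : ∃ β, β = δ / (t' + δ - t) := ⟨_, rfl⟩
    have q1 : 0 ≤ α := by rw [hα]; exact div_nonneg (by linarith) hl.le
    have q2 : 0 ≤ β := by rw [hβ]; exact div_nonneg hδ.le hl.le
    have q3 : α + β = 1 := by rw [hα, hβ]; field_simp; ring
    have q4 : β * (t' + δ - t) = δ := by rw [hβ]; field_simp
    have c1 := hcc.2 m0 m1 q1 q2 q3
    have c2 := hcc.2 m0 m1 q2 q1 (by linarith)
    simp only [smul_eq_mul] at c1 c2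
    have e1 : α * t + β * (t' + δ) = t + δ := by linear_combination t * q3 + q4
    have e2 : β * t + α * (t' + δ) = t' := by linear_combination (t' + δ) * q3 - q4
    rw [e1] at c1
    rw [e2] at c2
    have e4 : α * Pt x b v F t + β * Pt x b v F (t' + δ) +
        (β * Pt x b v F t + α * Pt x b v F (t' + δ)) =
        (α + β) * (Pt x b v F t + Pt x b v F (t' + δ)) := by ring
    rw [q3, one_mul] at e4
    linarith
  have a4 : (b - x) / 2 * δ * (Pst x b v F D t - C * √δ) ≤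
      (b - x) / 2 * δ * (Pst x b v F D t' + C * √δ) := a1.trans (a3.trans a2)
  have a5 := le_of_mul_le_mul_left a4 (mul_pos hbx hδ)
  linarith

/-- **lower bound of the drop by the mean squared gradient at the left end** -/
theorem Pt_ge (h : C11 F D B L) (hc : Cv F) (hx : 0 < x) (hxb : x < b) {v : ℝ}
    (hcc : ConcaveOn ℝ (Set.Icc 0 v) (Pt x b v F)) {t t' : ℝ} (ht : 0 ≤ t) (htt : t ≤ t')
    (htv : t' ≤ v) : (b - x) / 2 * (t' - t) * Pst x b v F D t ≤ Pt x b v F t - Pt x b v F t' := by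
  rcases htt.eq_or_lt with e | hlt
  · rw [e]; simp
  obtain ⟨C, hC, hs⟩ := Pt_slope (D := D) h hc hx hxb.le
  have hbx : 0 < (b - x) / 2 := by linarith
  refine le_of_forall_pos_le_add fun ε hε => ?_
  set K : ℝ := (b - x) / 2 * (t' - t) with hK
  have hK0 : 0 < K := mul_pos hbx (by linarith)
  obtain ⟨δ, hδ, h1, h2, h4⟩ : ∃ δ : ℝ, 0 < δ ∧ δ ≤ 1 ∧ t + δ ≤ t' ∧ K * C * √δ ≤ ε := by
    set δ0 : ℝ := (ε / (K * C + 1)) ^ 2 with hδ0
    have hq : 0 < ε / (K * C + 1) := by positivity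
    refine ⟨min (min 1 (t' - t)) δ0, ?_, ?_, ?_, ?_⟩
    · refine lt_min (lt_min one_pos (by linarith)) ?_
      rw [hδ0]; positivity
    · exact (min_le_left _ _).trans (min_le_left _ _)
    · have : min (min 1 (t' - t)) δ0 ≤ t' - t := (min_le_left _ _).trans (min_le_right _ _)
      linarith
    · have k1 : min (min 1 (t' - t)) δ0 ≤ δ0 := min_le_right _ _
      have k2 : √(min (min 1 (t' - t)) δ0) ≤ ε / (K * C + 1) := by
        refine (Real.sqrt_le_sqrt k1).trans ?_
        rw [hδ0, Real.sqrt_sq hq.le]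
      calc K * C * √(min (min 1 (t' - t)) δ0) ≤ K * C * (ε / (K * C + 1)) :=
            mul_le_mul_of_nonneg_left k2 (by positivity)
        _ ≤ ε := by
            rw [← mul_div_assoc, div_le_iff₀ (by positivity)]
            nlinarith
  have a1 := (hs v t (t + δ) ht (by linarith) (by linarith) (by linarith)).1
  rw [add_sub_cancel_left] at a1
  have m0 : t ∈ Set.Icc 0 v := ⟨ht, by linarith⟩
  have m1 : t' ∈ Set.Icc 0 v := ⟨by linarith, by linarith⟩
  have hl : 0 < t' - t := by linarith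
  obtain ⟨β, hβ⟩ : ∃ β, β = δ / (t' - t) := ⟨_, rfl⟩
  have q2 : 0 ≤ β := by rw [hβ]; exact div_nonneg hδ.le hl.le
  have q1 : 0 ≤ 1 - β := by
    rw [hβ, sub_nonneg, div_le_one hl]
    linarith
  have q4 : β * (t' - t) = δ := by rw [hβ]; field_simp
  have c1 := hcc.2 m0 m1 q1 q2 (by ring)
  simp only [smul_eq_mul] at c1
  have e1 : (1 - β) * t + β * t' = t + δ := by linear_combination q4
  rw [e1] at c1
  -- `β (P t - P t') ≥ P t - P (t + δ)`
  have a2 : (b - x) / 2 * δ * (Pst x b v F D t - C * √δ) ≤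
      β * (Pt x b v F t - Pt x b v F t') := by
    refine a1.trans ?_
    linarith
  have a3 : δ * (K * (Pst x b v F D t - C * √δ)) ≤
      δ * (Pt x b v F t - Pt x b v F t') := by
    have := mul_le_mul_of_nonneg_left a2 hl.le
    have e2 : (t' - t) * (β * (Pt x b v F t - Pt x b v F t')) =
        δ * (Pt x b v F t - Pt x b v F t') := by
      linear_combination (Pt x b v F t - Pt x b v F t') * q4
    rw [e2] at this
    refine le_trans (le_of_eq ?_) this
    rw [hK]
    ring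
  have a4 := le_of_mul_le_mul_left a3 hδ
  linarith

/-- **upper bound of the drop by the mean squared gradient at the right end** -/
theorem Pt_le (h : C11 F D B L) (hc : Cv F) (hx : 0 < x) (hxb : x < b) {v : ℝ}
    (hcc : ConcaveOn ℝ (Set.Icc 0 v) (Pt x b v F)) {t t' : ℝ} (ht : 0 ≤ t) (htt : t ≤ t')
    (htv : t' < v) : Pt x b v F t - Pt x b v F t' ≤ (b - x) / 2 * (t' - t) * Pst x b v F D t' := by
  have h1 := PP_drop (D := D) h hc hx hxb.le ht htt htv.le (m := Pst x b v F D t')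
    fun s hs hs' => Pst_mono h hc hx hxb hcc (ht.trans hs) hs' htv
  unfold Pt
  linarith

end Vale.Agent.P146.U
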