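import Mathlib

/-!
# P146: the stable law behind the random energy model, deterministic integrals (helper676)

`hh t = 1 - exp (-t)`, `cc m = ∫ hh (exp u) exp (-(m u)) du` (`0 < m < 1`).
-/

open MeasureTheory Filter Topology Set

namespace Vale.Agent.P146.H676

/-- `1 - e^{-t}` -/
noncomputable def hh (t : ℝ) : ℝ := 1 - Real.exp (-t)

lemma hh_cont : Continuous hh := by unfold hh; fun_prop

lemma hh_nonneg {t : ℝ} (ht : 0 ≤ t) : 0 ≤ hh t := by
  unfold hh
  have := Real.exp_le_one_iff.2 (neg_nonpos.2 ht)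
  linarith

lemma hh_pos {t : ℝ} (ht : 0 < t) : 0 < hh t := by
  unfold hh
  have : Real.exp (-t) < 1 := by
    rw [Real.exp_lt_one_iff]
    linarith
  linarith

lemma hh_le_one (t : ℝ) : hh t ≤ 1 := by
  unfold hh
  have := Real.exp_pos (-t)
  linarith

lemma hh_lt_one (t : ℝ) : hh t < 1 := by
  unfold hh
  have := Real.exp_pos (-t)
  linarith

lemma hh_le_self (t : ℝ) : hh t ≤ t := by
  unfold hh
  have := Real.add_one_le_exp (-t)
  linarith

/-- exponential decay on both sides implies integrability -/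
lemma integrable_of_exp {f : ℝ → ℝ} (hf : Measurable f) {C κ : ℝ} (hκ : 0 < κ)
    (h : ∀ u, |f u| ≤ C * Real.exp (-(κ * |u|))) : Integrable f := by
  have h1 : Integrable fun u : ℝ => Real.exp (-(κ * |u|)) := by
    rw [← integrableOn_univ, ← Iic_union_Ioi (a := (0 : ℝ))]
    refine IntegrableOn.union ?_ ?_
    · refine (integrableOn_exp_mul_Iic hκ 0).congr_fun (fun u hu => ?_) measurableSet_Iic
      simp only [mem_Iic] at hu
      simp only [abs_of_nonpos hu]
      congr 1
      ring
    · refine (integrableOn_exp_mul_Ioi (a := -κ) (by linarith) 0).congr_fun (fun u hu => ?_)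
        measurableSet_Ioi
      simp only [mem_Ioi] at hu
      simp only [abs_of_pos hu]
      congr 1
      ring
  exact (h1.const_mul C).mono' hf.aestronglyMeasurable (Eventually.of_forall fun u => by
    rw [Real.norm_eq_abs]; exact h u)

/-- the basic weight -/
noncomputable def ww (m u : ℝ) : ℝ := hh (Real.exp u) * Real.exp (-(m * u))

lemma ww_nonneg (m u : ℝ) : 0 ≤ ww m u := mul_nonneg (hh_nonneg (Real.exp_pos u).le) (Real.exp_pos _).le

lemma ww_cont (m : ℝ) : Continuous (ww m) := by
  unfold ww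
  exact (hh_cont.comp Real.continuous_exp).mul (by fun_prop)

lemma ww_le {m : ℝ} (hm : 0 < m) (hm1 : m < 1) (u : ℝ) :
    ww m u ≤ 1 * Real.exp (-(min m (1 - m) * |u|)) := by
  unfold ww
  rw [one_mul]
  have k1 := min_le_left m (1 - m)
  have k2 := min_le_right m (1 - m)
  rcases le_total u 0 with h | h
  · calc hh (Real.exp u) * Real.exp (-(m * u)) ≤ Real.exp u * Real.exp (-(m * u)) :=
          mul_le_mul_of_nonneg_right (hh_le_self _) (Real.exp_pos _).le
      _ = Real.exp ((1 - m) * u) := by rw [← Real.exp_add]; congr 1; ring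
      _ ≤ _ := by
          refine Real.exp_le_exp.2 ?_
          rw [abs_of_nonpos h]
          nlinarith
  · calc hh (Real.exp u) * Real.exp (-(m * u)) ≤ 1 * Real.exp (-(m * u)) :=
          mul_le_mul_of_nonneg_right (hh_le_one _) (Real.exp_pos _).le
      _ ≤ _ := by
          rw [one_mul]
          refine Real.exp_le_exp.2 ?_
          rw [abs_of_nonneg h]
          nlinarith

lemma min_pos' {m : ℝ} (hm : 0 < m) (hm1 : m < 1) : 0 < min m (1 - m) :=
  lt_min hm (by linarith)

lemma ww_int {m : ℝ} (hm : 0 < m) (hm1 : m < 1) : Integrable (ww m) :=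
  integrable_of_exp (ww_cont m).measurable (min_pos' hm hm1) fun u => by
    rw [abs_of_nonneg (ww_nonneg m u)]
    exact ww_le hm hm1 u

/-- the constant of the stable law -/
noncomputable def cc (m : ℝ) : ℝ := ∫ u, ww m u

lemma cc_pos {m : ℝ} (hm : 0 < m) (hm1 : m < 1) : 0 < cc m := by
  unfold cc
  rw [integral_pos_iff_support_of_nonneg (fun u => ww_nonneg m u) (ww_int hm hm1)]
  have : Function.support (ww m) = univ := by
    ext u
    simp only [Function.mem_support, mem_univ, iff_true]
    exact (mul_pos (hh_pos (Real.exp_pos u)) (Real.exp_pos _)).ne'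
  rw [this]
  simp

/-- scaling -/
lemma ww_scale {m z : ℝ} (hz : 0 < z) (u : ℝ) :
    hh (Real.exp u * z) * Real.exp (-(m * u)) = z ^ m * ww m (u + Real.log z) := by
  unfold ww
  have e1 : Real.exp (u + Real.log z) = Real.exp u * z := by
    rw [Real.exp_add, Real.exp_log hz]
  rw [e1]
  have e2 : z ^ m * Real.exp (-(m * (u + Real.log z))) = Real.exp (-(m * u)) := by
    rw [Real.rpow_def_of_pos hz, ← Real.exp_add]
    congr 1
    ring
  linear_combination (-hh (Real.exp u * z)) * e2

lemma int_scale {m z : ℝ} (hm : 0 < m) (hm1 : m < 1) (hz : 0 < z) :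
    Integrable fun u => hh (Real.exp u * z) * Real.exp (-(m * u)) := by
  simp only [ww_scale hz]
  exact ((ww_int hm hm1).comp_add_right (Real.log z)).const_mul _

lemma val_scale {m z : ℝ} (hz : 0 < z) :
    ∫ u, hh (Real.exp u * z) * Real.exp (-(m * u)) = z ^ m * cc m := by
  simp only [ww_scale hz]
  rw [integral_const_mul, integral_add_right_eq_self (ww m) (Real.log z)]
  rfl

/-! ### the outer integral -/

/-- the weight of the stable law -/
noncomputable def sw (y m c u : ℝ) : ℝ := hh (c * Real.exp (m * u)) * Real.exp (-(y * u))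

lemma sw_nonneg {y m c : ℝ} (hc : 0 ≤ c) (u : ℝ) : 0 ≤ sw y m c u :=
  mul_nonneg (hh_nonneg (mul_nonneg hc (Real.exp_pos _).le)) (Real.exp_pos _).le

lemma sw_cont (y m c : ℝ) : Continuous (sw y m c) := by
  unfold sw
  exact (hh_cont.comp (by fun_prop)).mul (by fun_prop)

/-- the dominating function of the outer integral -/
noncomputable def dw (y m c u : ℝ) : ℝ := min 1 (c * Real.exp (m * u)) * Real.exp (-(y * u))

lemma dw_nonneg {y m c : ℝ} (hc : 0 ≤ c) (u : ℝ) : 0 ≤ dw y m c u :=
  mul_nonneg (le_min zero_le_one (mul_nonneg hc (Real.exp_pos _).le)) (Real.exp_pos _).le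

lemma sw_le_dw (y m c u : ℝ) : sw y m c u ≤ dw y m c u :=
  mul_le_mul_of_nonneg_right (le_min (hh_le_one _) (hh_le_self _)) (Real.exp_pos _).le

lemma dw_le {y m c : ℝ} (hc : 0 ≤ c) (u : ℝ) :
    dw y m c u ≤ (1 + c) * Real.exp (-(min y (m - y) * |u|)) := by
  unfold dw
  have k1 := min_le_left y (m - y)
  have k2 := min_le_right y (m - y)
  rcases le_total u 0 with h | h
  · calc min 1 (c * Real.exp (m * u)) * Real.exp (-(y * u)) ≤
          (c * Real.exp (m * u)) * Real.exp (-(y * u)) :=
          mul_le_mul_of_nonneg_right (min_le_right _ _) (Real.exp_pos _).le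
      _ = c * Real.exp ((m - y) * u) := by rw [mul_assoc, ← Real.exp_add]; congr 2; ring
      _ ≤ c * Real.exp (-(min y (m - y) * |u|)) := by
          refine mul_le_mul_of_nonneg_left (Real.exp_le_exp.2 ?_) hc
          rw [abs_of_nonpos h]
          nlinarith
      _ ≤ _ := mul_le_mul_of_nonneg_right (by linarith) (Real.exp_pos _).le
  · calc min 1 (c * Real.exp (m * u)) * Real.exp (-(y * u)) ≤ 1 * Real.exp (-(y * u)) :=
          mul_le_mul_of_nonneg_right (min_le_left _ _) (Real.exp_pos _).le
      _ ≤ 1 * Real.exp (-(min y (m - y) * |u|)) := by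
          refine mul_le_mul_of_nonneg_left (Real.exp_le_exp.2 ?_) zero_le_one
          rw [abs_of_nonneg h]
          nlinarith
      _ ≤ _ := mul_le_mul_of_nonneg_right (by linarith) (Real.exp_pos _).le

lemma dw_cont (y m c : ℝ) : Continuous (dw y m c) := by
  unfold dw
  exact (continuous_const.min (by fun_prop)).mul (by fun_prop)

lemma dw_int {y m c : ℝ} (hy : 0 < y) (hym : y < m) (hc : 0 ≤ c) : Integrable (dw y m c) :=
  integrable_of_exp (dw_cont y m c).measurable (lt_min hy (sub_pos.2 hym)) fun u => by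
    rw [abs_of_nonneg (dw_nonneg hc u)]
    exact dw_le hc u

lemma sw_int {y m c : ℝ} (hy : 0 < y) (hym : y < m) (hc : 0 ≤ c) : Integrable (sw y m c) :=
  (dw_int hy hym hc).mono' (sw_cont y m c).aestronglyMeasurable
    (Eventually.of_forall fun u => by
      rw [Real.norm_eq_abs, abs_of_nonneg (sw_nonneg hc u)]
      exact sw_le_dw y m c u)

lemma sw_int_pos {y m c : ℝ} (hy : 0 < y) (hym : y < m) (hc : 0 < c) : 0 < ∫ u, sw y m c u := by
  rw [integral_pos_iff_support_of_nonneg (fun u => sw_nonneg hc.le u) (sw_int hy hym hc.le)]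
  have : Function.support (sw y m c) = univ := by
    ext u
    simp only [Function.mem_support, mem_univ, iff_true]
    exact (mul_pos (hh_pos (mul_pos hc (Real.exp_pos _))) (Real.exp_pos _)).ne'
  rw [this]
  simp

/-- scaling of the constant: `c G` for `c` -/
lemma exp_shift {m c G : ℝ} (hm : 0 < m) (hG : 0 < G) (u : ℝ) :
    c * G * Real.exp (m * u) = c * Real.exp (m * (u + Real.log G / m)) := by
  have : m * (u + Real.log G / m) = m * u + Real.log G := by
    field_simp
  rw [this, Real.exp_add, Real.exp_log hG]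
  ring

lemma exp_shift' {y m G : ℝ} (hG : 0 < G) (u : ℝ) :
    Real.exp (-(y * u)) = G ^ (y / m) * Real.exp (-(y * (u + Real.log G / m))) := by
  rw [Real.rpow_def_of_pos hG, ← Real.exp_add]
  congr 1
  ring

lemma sw_G {y m c G : ℝ} (hm : 0 < m) (hG : 0 < G) (u : ℝ) :
    sw y m (c * G) u = G ^ (y / m) * sw y m c (u + Real.log G / m) := by
  unfold sw
  rw [exp_shift hm hG, exp_shift' (y := y) (m := m) hG u]
  ring

lemma dw_G {y m c G : ℝ} (hm : 0 < m) (hG : 0 < G) (u : ℝ) :
    dw y m (c * G) u = G ^ (y / m) * dw y m c (u + Real.log G / m) := by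
  unfold dw
  rw [exp_shift hm hG, exp_shift' (y := y) (m := m) hG u]
  ring

lemma val_sw {y m c G : ℝ} (hm : 0 < m) (hG : 0 < G) :
    ∫ u, sw y m (c * G) u = G ^ (y / m) * ∫ u, sw y m c u := by
  simp only [sw_G hm hG]
  rw [integral_const_mul, integral_add_right_eq_self (sw y m c) (Real.log G / m)]

lemma val_dw {y m c G : ℝ} (hm : 0 < m) (hG : 0 < G) :
    ∫ u, dw y m (c * G) u = G ^ (y / m) * ∫ u, dw y m c u := by
  simp only [dw_G hm hG]
  rw [integral_const_mul, integral_add_right_eq_self (dw y m c) (Real.log G / m)]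

end Vale.Agent.P146.H676
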