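import Vale.Agent.P146.H676.Rem0

/-!
# P146: the random energy model at the edge, one level (helper676)

`N = exp (m² v / 2)`, `δ = log (2 π v) / (2 m)`, `a = m v - δ`: then
`N E f (exp (√v g - a)) = ∫ f (exp u) exp (-(m u)) exp (-(u - δ)² / (2 v)) du` exactly.
-/

open MeasureTheory Filter Topology Set ProbabilityTheory

namespace Vale.Agent.P146.H676

/-- the shift of the centring -/
noncomputable def dd (m v : ℝ) : ℝ := Real.log (2 * Real.pi * v) / (2 * m)

/-- the centring -/
noncomputable def aa (m v : ℝ) : ℝ := m * v - dd m v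

/-- the Gaussian factor -/
noncomputable def gg (m v u : ℝ) : ℝ := Real.exp (-((u - dd m v) ^ 2 / (2 * v)))

lemma gg_pos (m v u : ℝ) : 0 < gg m v u := Real.exp_pos _

lemma gg_le_one {m v : ℝ} (hv : 0 < v) (u : ℝ) : gg m v u ≤ 1 := by
  unfold gg
  rw [Real.exp_le_one_iff]
  have : 0 ≤ (u - dd m v) ^ 2 / (2 * v) := by positivity
  linarith

lemma gg_cont (m v : ℝ) : Continuous (gg m v) := by
  unfold gg
  fun_prop

/-- the exact density -/
lemma dens_eq {m v : ℝ} (hm : 0 < m) (hv : 0 < v) (u : ℝ) :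
    Real.exp (m ^ 2 * v / 2) * gaussianPDFReal (-aa m v) v.toNNReal u =
      Real.exp (-(m * u)) * gg m v u := by
  unfold gaussianPDFReal
  have hv1 : ((v.toNNReal : NNReal) : ℝ) = v := Real.coe_toNNReal v hv.le
  rw [hv1]
  have h1 : (Real.sqrt (2 * Real.pi * v))⁻¹ = Real.exp (-(m * dd m v)) := by
    have h2 : m * dd m v = Real.log (Real.sqrt (2 * Real.pi * v)) := by
      unfold dd
      rw [Real.log_sqrt (by positivity)]
      field_simp
    rw [h2, Real.exp_neg, Real.exp_log (by positivity)]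
  rw [h1]
  unfold gg
  rw [← Real.exp_add, ← Real.exp_add, ← Real.exp_add]
  congr 1
  unfold aa
  field_simp
  ring

lemma gauss_shift {m v : ℝ} (hm : 0 < m) (hv : 0 < v) {f : ℝ → ℝ} (hf : Measurable f) :
    Real.exp (m ^ 2 * v / 2) * ∫ r, f (Real.exp (Real.sqrt v * r - aa m v)) ∂(gaussianReal 0 1) =
      ∫ u, f (Real.exp u) * (Real.exp (-(m * u)) * gg m v u) := by
  have h1 : (gaussianReal 0 1).map (fun r => Real.sqrt v * r - aa m v) =
      gaussianReal (-aa m v) v.toNNReal := by
    have e : (fun r : ℝ => Real.sqrt v * r - aa m v) =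
        (fun r => r + -aa m v) ∘ (fun r => Real.sqrt v * r) := by
      funext r
      simp only [Function.comp]
      ring
    rw [e, ← Measure.map_map (by fun_prop) (by fun_prop), gaussianReal_map_const_mul,
      gaussianReal_map_add_const]
    congr 1
    · ring
    · ext
      simp only [mul_one, NNReal.coe_mk]
      rw [Real.coe_toNNReal v hv.le, Real.sq_sqrt hv.le]
  have h2 : ∫ r, f (Real.exp (Real.sqrt v * r - aa m v)) ∂(gaussianReal 0 1) =
      ∫ u, f (Real.exp u) ∂(gaussianReal (-aa m v) v.toNNReal) := by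
    rw [← h1, integral_map (by fun_prop)]
    exact (hf.comp Real.measurable_exp).aestronglyMeasurable
  have hv0 : v.toNNReal ≠ 0 := by
    rw [Ne, Real.toNNReal_eq_zero]
    linarith
  rw [h2, integral_gaussianReal_eq_integral_smul hv0, ← integral_const_mul]
  refine integral_congr_ae (Eventually.of_forall fun u => ?_)
  simp only [smul_eq_mul]
  rw [← dens_eq hm hv]
  ring

lemma dd_lim (m : ℝ) {v : ℕ → ℝ} (hv : Tendsto v atTop atTop) (hm : 0 < m) (u : ℝ) :
    Tendsto (fun N => gg m (v N) u) atTop (𝓝 1) := by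
  have h0 : Tendsto (fun w : ℝ => (u - dd m w) ^ 2 / (2 * w)) atTop (𝓝 0) := by
    have hl : Tendsto (fun w : ℝ => Real.log (2 * Real.pi * w) / (2 * m) / Real.sqrt w) atTop
        (𝓝 0) := by
      have h1 : Tendsto (fun w : ℝ => Real.log w / w ^ (1 / 2 : ℝ)) atTop (𝓝 0) :=
        (isLittleO_log_rpow_atTop (by norm_num : (0 : ℝ) < 1 / 2)).tendsto_div_nhds_zero
      have h2 : Tendsto (fun w : ℝ => Real.log (2 * Real.pi) / Real.sqrt w) atTop (𝓝 0) :=
        Tendsto.div_atTop tendsto_const_nhds Real.tendsto_sqrt_atTop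
      have h3 := (h2.add h1).div_const (2 * m)
      simp only [add_zero, zero_div] at h3
      refine h3.congr' ?_
      filter_upwards [eventually_gt_atTop (0 : ℝ)] with w hw
      rw [Real.log_mul (by positivity) hw.ne', ← Real.sqrt_eq_rpow]
      field_simp
    have hu : Tendsto (fun w : ℝ => u / Real.sqrt w) atTop (𝓝 0) :=
      Tendsto.div_atTop tendsto_const_nhds Real.tendsto_sqrt_atTop
    have h4 := ((hu.sub hl).pow 2).div_const 2
    simp only [sub_zero, ne_eq, OfNat.ofNat_ne_zero, not_false_eq_true, zero_pow, zero_div] at h4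
    refine h4.congr' ?_
    filter_upwards [eventually_gt_atTop (0 : ℝ)] with w hw
    have hs : Real.sqrt w ^ 2 = w := Real.sq_sqrt hw.le
    unfold dd
    rw [← sub_div, div_pow, hs]
    field_simp
  have h5 := (Real.continuous_exp.tendsto _).comp (h0.comp hv).neg
  simp only [neg_zero, Real.exp_zero] at h5
  exact h5

/-! ### the fine average -/

variable {Ω : Type*} [MeasurableSpace Ω] (μ : Measure Ω)

/-- `q`: the mean of `hh (e^l · point)` -/
noncomputable def qq (m v : ℝ) (Z : Ω → ℝ) (l : ℝ) : ℝ :=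
  ∫ w, (∫ r, hh (Real.exp l * (Real.exp (Real.sqrt v * r - aa m v) * Z w)) ∂(gaussianReal 0 1)) ∂μ

/-- the inner integral -/
noncomputable def qi (m v z : ℝ) : ℝ :=
  ∫ u, hh (Real.exp u * z) * (Real.exp (-(m * u)) * gg m v u)

variable {μ} {m v : ℝ} {Z : Ω → ℝ}

lemma qi_integrable (hm : 0 < m) (hm1 : m < 1) (hv : 0 < v) {z : ℝ} (hz : 0 < z) :
    Integrable fun u => hh (Real.exp u * z) * (Real.exp (-(m * u)) * gg m v u) := by
  refine (int_scale hm hm1 hz).mono' ?_ (Eventually.of_forall fun u => ?_)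
  · refine Continuous.aestronglyMeasurable ?_
    exact (hh_cont.comp (by fun_prop)).mul ((by fun_prop : Continuous fun u : ℝ =>
      Real.exp (-(m * u))).mul (gg_cont m v))
  · rw [Real.norm_eq_abs, abs_of_nonneg (mul_nonneg (hh_nonneg (mul_pos (Real.exp_pos u) hz).le)
      (mul_pos (Real.exp_pos _) (gg_pos m v u)).le)]
    refine mul_le_mul_of_nonneg_left ?_ (hh_nonneg (mul_pos (Real.exp_pos u) hz).le)
    exact mul_le_of_le_one_right (Real.exp_pos _).le (gg_le_one hv u)

lemma qi_nonneg {z : ℝ} (hz : 0 < z) : 0 ≤ qi m v z :=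
  integral_nonneg fun u => mul_nonneg (hh_nonneg (mul_pos (Real.exp_pos u) hz).le)
    (mul_pos (Real.exp_pos _) (gg_pos m v u)).le

lemma qi_le (hm : 0 < m) (hm1 : m < 1) (hv : 0 < v) {z : ℝ} (hz : 0 < z) :
    qi m v z ≤ z ^ m * cc m := by
  rw [← val_scale hz]
  refine integral_mono (qi_integrable hm hm1 hv hz) (int_scale hm hm1 hz) fun u => ?_
  refine mul_le_mul_of_nonneg_left ?_ (hh_nonneg (mul_pos (Real.exp_pos u) hz).le)
  exact mul_le_of_le_one_right (Real.exp_pos _).le (gg_le_one hv u)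

lemma qi_lim (hm : 0 < m) (hm1 : m < 1) {v : ℕ → ℝ} (hv : Tendsto v atTop atTop)
    (hv0 : ∀ᶠ N in atTop, 0 < v N) {z : ℝ} (hz : 0 < z) :
    Tendsto (fun N => qi m (v N) z) atTop (𝓝 (z ^ m * cc m)) := by
  rw [← val_scale hz]
  refine tendsto_integral_filter_of_dominated_convergence
    (fun u => hh (Real.exp u * z) * Real.exp (-(m * u))) ?_ ?_ (int_scale hm hm1 hz) ?_
  · filter_upwards [hv0] with N hN
    exact (qi_integrable hm hm1 hN hz).aestronglyMeasurable
  · filter_upwards [hv0] with N hN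
    refine Eventually.of_forall fun u => ?_
    rw [Real.norm_eq_abs, abs_of_nonneg (mul_nonneg (hh_nonneg (mul_pos (Real.exp_pos u) hz).le)
      (mul_pos (Real.exp_pos _) (gg_pos m (v N) u)).le)]
    refine mul_le_mul_of_nonneg_left ?_ (hh_nonneg (mul_pos (Real.exp_pos u) hz).le)
    exact mul_le_of_le_one_right (Real.exp_pos _).le (gg_le_one hN u)
  · refine Eventually.of_forall fun u => ?_
    have h := (dd_lim m hv hm u).const_mul (hh (Real.exp u * z) * Real.exp (-(m * u)))
    rw [mul_one] at h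
    refine h.congr fun N => ?_
    ring

/-- **the exact formula** -/
lemma qq_eq (hm : 0 < m) (hv : 0 < v) (l : ℝ) :
    Real.exp (m ^ 2 * v / 2) * qq μ m v Z l = ∫ w, qi m v (Real.exp l * Z w) ∂μ := by
  unfold qq qi
  rw [← integral_const_mul]
  refine integral_congr_ae (Eventually.of_forall fun w => ?_)
  simp only
  have h := gauss_shift hm hv (f := fun t => hh (t * (Real.exp l * Z w)))
    ((hh_cont.comp (continuous_mul_const _)).measurable)
  rw [← h]
  congr 1
  refine integral_congr_ae (Eventually.of_forall fun r => ?_)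
  simp only
  congr 1
  ring

lemma meas_qi (m v : ℝ) : Measurable (qi m v) := by
  have hc : Continuous fun p : ℝ × ℝ => hh (Real.exp p.2 * p.1) *
      (Real.exp (-(m * p.2)) * gg m v p.2) :=
    (hh_cont.comp (by fun_prop)).mul ((by fun_prop : Continuous fun p : ℝ × ℝ =>
      Real.exp (-(m * p.2))).mul ((gg_cont m v).comp continuous_snd))
  exact (hc.stronglyMeasurable.integral_prod_right' (ν := volume)).measurable

lemma qq_nonneg (hZ : ∀ w, 0 < Z w) (l : ℝ) : 0 ≤ qq μ m v Z l :=
  integral_nonneg fun w => integral_nonneg fun _ => hh_nonneg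
    (mul_nonneg (Real.exp_pos _).le (mul_nonneg (Real.exp_pos _).le (hZ w).le))

lemma qq_le_one [IsProbabilityMeasure μ] (hZ : ∀ w, 0 < Z w) (l : ℝ) : qq μ m v Z l ≤ 1 := by
  have h1 : ∀ w, ∫ r, hh (Real.exp l * (Real.exp (Real.sqrt v * r - aa m v) * Z w))
      ∂(gaussianReal 0 1) ≤ 1 := by
    intro w
    calc ∫ r, hh (Real.exp l * (Real.exp (Real.sqrt v * r - aa m v) * Z w)) ∂(gaussianReal 0 1) ≤
          ∫ _r, (1 : ℝ) ∂(gaussianReal 0 1) := by
          refine integral_mono_of_nonneg (Eventually.of_forall fun r => ?_) (integrable_const _)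
            (Eventually.of_forall fun r => hh_le_one _)
          exact hh_nonneg (mul_nonneg (Real.exp_pos _).le (mul_nonneg (Real.exp_pos _).le (hZ w).le))
      _ = 1 := by simp
  calc qq μ m v Z l ≤ ∫ _w, (1 : ℝ) ∂μ := by
        refine integral_mono_of_nonneg (Eventually.of_forall fun w => ?_) (integrable_const _)
          (Eventually.of_forall h1)
        exact integral_nonneg fun r => hh_nonneg
          (mul_nonneg (Real.exp_pos _).le (mul_nonneg (Real.exp_pos _).le (hZ w).le))
    _ = 1 := by simp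

lemma exp_mul_rpow (l : ℝ) {z : ℝ} (hz : 0 < z) :
    (Real.exp l * z) ^ m = Real.exp (m * l) * z ^ m := by
  rw [Real.mul_rpow (Real.exp_pos l).le hz.le, ← Real.exp_mul, mul_comm l m]

lemma qi_meas' (hZm : Measurable Z) (l : ℝ) : Measurable fun w => qi m v (Real.exp l * Z w) :=
  (meas_qi m v).comp (hZm.const_mul _)

lemma qi_Z_int (hm : 0 < m) (hm1 : m < 1) (hv : 0 < v) (hZ : ∀ w, 0 < Z w) (hZm : Measurable Z)
    (hi : Integrable (fun w => Z w ^ m) μ) (l : ℝ) :
    Integrable (fun w => qi m v (Real.exp l * Z w)) μ := by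
  refine (hi.const_mul (cc m * Real.exp (m * l))).mono' (qi_meas' hZm l).aestronglyMeasurable
    (Eventually.of_forall fun w => ?_)
  have hz := mul_pos (Real.exp_pos l) (hZ w)
  rw [Real.norm_eq_abs, abs_of_nonneg (qi_nonneg hz)]
  refine (qi_le hm hm1 hv hz).trans (le_of_eq ?_)
  rw [exp_mul_rpow l (hZ w)]
  ring

/-- the upper bound -/
lemma qq_le (hm : 0 < m) (hm1 : m < 1) (hv : 0 < v) (hZ : ∀ w, 0 < Z w) (hZm : Measurable Z)
    (hi : Integrable (fun w => Z w ^ m) μ) (l : ℝ) :
    Real.exp (m ^ 2 * v / 2) * qq μ m v Z l ≤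
      cc m * (∫ w, Z w ^ m ∂μ) * Real.exp (m * l) := by
  rw [qq_eq hm hv]
  calc ∫ w, qi m v (Real.exp l * Z w) ∂μ ≤ ∫ w, (cc m * Real.exp (m * l)) * Z w ^ m ∂μ := by
        refine integral_mono (qi_Z_int hm hm1 hv hZ hZm hi l) (hi.const_mul _) fun w => ?_
        have hz := mul_pos (Real.exp_pos l) (hZ w)
        refine (qi_le hm hm1 hv hz).trans (le_of_eq ?_)
        rw [exp_mul_rpow l (hZ w)]
        ring
    _ = _ := by
        rw [integral_const_mul]
        ring

/-- the limit -/
lemma qq_lim (hm : 0 < m) (hm1 : m < 1) {v : ℕ → ℝ} (hv : Tendsto v atTop atTop)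
    (hv0 : ∀ᶠ N in atTop, 0 < v N) (hZ : ∀ w, 0 < Z w) (hZm : Measurable Z)
    (hi : Integrable (fun w => Z w ^ m) μ) (l : ℝ) :
    Tendsto (fun N => Real.exp (m ^ 2 * v N / 2) * qq μ m (v N) Z l) atTop
      (𝓝 (cc m * (∫ w, Z w ^ m ∂μ) * Real.exp (m * l))) := by
  have e : cc m * (∫ w, Z w ^ m ∂μ) * Real.exp (m * l) =
      ∫ w, (Real.exp l * Z w) ^ m * cc m ∂μ := by
    have : ∀ w, (Real.exp l * Z w) ^ m * cc m = (cc m * Real.exp (m * l)) * Z w ^ m := by
      intro w
      rw [exp_mul_rpow l (hZ w)]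
      ring
    simp only [this]
    rw [integral_const_mul]
    ring
  rw [e]
  have h1 : Tendsto (fun N => ∫ w, qi m (v N) (Real.exp l * Z w) ∂μ) atTop
      (𝓝 (∫ w, (Real.exp l * Z w) ^ m * cc m ∂μ)) := by
    refine tendsto_integral_filter_of_dominated_convergence
      (fun w => (cc m * Real.exp (m * l)) * Z w ^ m) ?_ ?_ (hi.const_mul _) ?_
    · exact Eventually.of_forall fun N => (qi_meas' hZm l).aestronglyMeasurable
    · filter_upwards [hv0] with N hN
      refine Eventually.of_forall fun w => ?_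
      have hz := mul_pos (Real.exp_pos l) (hZ w)
      rw [Real.norm_eq_abs, abs_of_nonneg (qi_nonneg hz)]
      refine (qi_le hm hm1 hN hz).trans (le_of_eq ?_)
      rw [exp_mul_rpow l (hZ w)]
      ring
    · exact Eventually.of_forall fun w => qi_lim hm hm1 hv hv0 (mul_pos (Real.exp_pos l) (hZ w))
  refine h1.congr' ?_
  filter_upwards [hv0] with N hN
  rw [qq_eq hm hN]

end Vale.Agent.P146.H676
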