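import Vale.Agent.P146.H676.Rem1

/-!
# P146: moments of a sum of independent positive variables by the Laplace transform (helper676)
-/

open MeasureTheory Filter Topology Set ProbabilityTheory

namespace Vale.Agent.P146.H676

set_option linter.unusedSectionVars false
set_option linter.unusedVariables false

variable {E : Type*} [MeasurableSpace E] (ρ : Measure E) [IsProbabilityMeasure ρ]

/-- the mean of `hh (e^l X)` -/
noncomputable def qx (X : E → ℝ) (l : ℝ) : ℝ := ∫ e, hh (Real.exp l * X e) ∂ρ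

variable {ρ} {X : E → ℝ} {J : Type*} [Fintype J]

lemma hh_bdd_int (hX : Measurable X) (hpos : ∀ e, 0 ≤ X e) :
    Integrable (fun e => hh (X e)) ρ := by
  refine (integrable_const (1 : ℝ)).mono' (hh_cont.measurable.comp hX).aestronglyMeasurable
    (Eventually.of_forall fun e => ?_)
  rw [Real.norm_eq_abs, abs_of_nonneg (hh_nonneg (hpos e))]
  exact hh_le_one _

lemma qx_nonneg (hpos : ∀ e, 0 < X e) (l : ℝ) : 0 ≤ qx ρ X l :=
  integral_nonneg fun e => hh_nonneg (mul_pos (Real.exp_pos _) (hpos e)).le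

lemma qx_le_one (hX : Measurable X) (hpos : ∀ e, 0 < X e) (l : ℝ) : qx ρ X l ≤ 1 := by
  calc qx ρ X l ≤ ∫ _e, (1 : ℝ) ∂ρ :=
        integral_mono (hh_bdd_int (hX.const_mul _)
          fun e => (mul_pos (Real.exp_pos l) (hpos e)).le) (integrable_const _)
          fun e => hh_le_one _
    _ = 1 := by simp

lemma exp_int (hX : Measurable X) (hpos : ∀ e, 0 < X e) (l : ℝ) :
    ∫ e, Real.exp (-(Real.exp l * X e)) ∂ρ = 1 - qx ρ X l := by
  have h : ∀ e, Real.exp (-(Real.exp l * X e)) = 1 - hh (Real.exp l * X e) := fun e => by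
    unfold hh
    ring
  simp only [h]
  rw [integral_sub (integrable_const _) (hh_bdd_int (hX.const_mul _)
    fun e => (mul_pos (Real.exp_pos l) (hpos e)).le)]
  simp [qx]

lemma meas_sum (hX : Measurable X) : Measurable fun w : J → E => ∑ j, X (w j) :=
  Finset.measurable_sum _ fun j _ => hX.comp (measurable_pi_apply j)

/-- the Laplace transform of the sum -/
lemma lap (hX : Measurable X) (hpos : ∀ e, 0 < X e) (l : ℝ) :
    ∫ w, hh (Real.exp l * ∑ j, X (w j)) ∂(Measure.pi fun _ : J => ρ) =
      1 - (1 - qx ρ X l) ^ Fintype.card J := by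
  have h1 : ∫ w, Real.exp (-(Real.exp l * ∑ j, X (w j))) ∂(Measure.pi fun _ : J => ρ) =
      (1 - qx ρ X l) ^ Fintype.card J := by
    rw [← exp_int hX hpos l, ← integral_fintype_prod_eq_pow (ι := J)
      (fun e => Real.exp (-(Real.exp l * X e)))]
    refine integral_congr_ae (Eventually.of_forall fun w => ?_)
    simp only
    rw [← Real.exp_sum, Finset.sum_neg_distrib, Finset.mul_sum]
  rw [← h1]
  have h2 : ∀ w : J → E, Real.exp (-(Real.exp l * ∑ j, X (w j))) =
      1 - hh (Real.exp l * ∑ j, X (w j)) := fun w => by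
    unfold hh
    ring
  simp only [h2]
  rw [integral_sub (integrable_const _) (hh_bdd_int ((meas_sum hX).const_mul _)
    fun w => mul_nonneg (Real.exp_pos l).le (Finset.sum_nonneg fun j _ => (hpos _).le))]
  simp

lemma one_sub_pow_le {q : ℝ} (h0 : 0 ≤ q) (h1 : q ≤ 1) (N : ℕ) :
    1 - (1 - q) ^ N ≤ min 1 (N * q) := by
  refine le_min ?_ ?_
  · have : 0 ≤ (1 - q) ^ N := pow_nonneg (by linarith) N
    linarith
  · have h := one_add_mul_le_pow (a := -q) (by linarith) N
    have e : (1 + -q) = 1 - q := by ring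
    rw [e] at h
    linarith

lemma one_sub_pow_nonneg {q : ℝ} (h0 : 0 ≤ q) (h1 : q ≤ 1) (N : ℕ) : 0 ≤ 1 - (1 - q) ^ N := by
  have : (1 - q) ^ N ≤ 1 := pow_le_one₀ (by linarith) (by linarith)
  linarith

lemma qx_meas (hX : Measurable X) : Measurable (qx ρ X) := by
  have h : Measurable fun p : ℝ × E => hh (Real.exp p.1 * X p.2) :=
    hh_cont.measurable.comp ((Real.measurable_exp.comp measurable_fst).mul (hX.comp measurable_snd))
  exact (h.stronglyMeasurable.integral_prod_right' (ν := ρ)).measurable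

/-- the integrand in `l` -/
noncomputable def fx (ρ : Measure E) (X : E → ℝ) (N : ℕ) (y l : ℝ) : ℝ :=
  (1 - (1 - qx ρ X l) ^ N) * Real.exp (-(y * l))

lemma fx_meas (hX : Measurable X) (N : ℕ) (y : ℝ) : Measurable (fx ρ X N y) := by
  unfold fx
  exact (measurable_const.sub ((measurable_const.sub (qx_meas hX)).pow_const N)).mul (by fun_prop)

lemma fx_nonneg (hX : Measurable X) (hpos : ∀ e, 0 < X e) (N : ℕ) (y l : ℝ) :
    0 ≤ fx ρ X N y l :=
  mul_nonneg (one_sub_pow_nonneg (qx_nonneg hpos l) (qx_le_one hX hpos l) N) (Real.exp_pos _).le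

lemma fx_le_dw (hX : Measurable X) (hpos : ∀ e, 0 < X e) {N : ℕ} {y m c : ℝ}
    (hb : ∀ l, N * qx ρ X l ≤ c * Real.exp (m * l)) (l : ℝ) : fx ρ X N y l ≤ dw y m c l := by
  refine mul_le_mul_of_nonneg_right ?_ (Real.exp_pos _).le
  exact (one_sub_pow_le (qx_nonneg hpos l) (qx_le_one hX hpos l) N).trans
    (min_le_min le_rfl (hb l))

lemma fx_int (hX : Measurable X) (hpos : ∀ e, 0 < X e) {N : ℕ} {y m c : ℝ} (hy : 0 < y)
    (hym : y < m) (hc : 0 ≤ c) (hb : ∀ l, N * qx ρ X l ≤ c * Real.exp (m * l)) :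
    Integrable (fx ρ X N y) :=
  (dw_int hy hym hc).mono' (fx_meas hX N y).aestronglyMeasurable
    (Eventually.of_forall fun l => by
      rw [Real.norm_eq_abs, abs_of_nonneg (fx_nonneg hX hpos N y l)]
      exact fx_le_dw hX hpos hb l)

/-- **the moment of the sum** -/
theorem pi_moment [Nonempty J] (hX : Measurable X) (hpos : ∀ e, 0 < X e) {y m c : ℝ}
    (hy : 0 < y) (hym : y < m) (hm1 : m < 1) (hc : 0 ≤ c)
    (hb : ∀ l, (Fintype.card J : ℝ) * qx ρ X l ≤ c * Real.exp (m * l)) :
    Integrable (fun w : J → E => (∑ j, X (w j)) ^ y) (Measure.pi fun _ : J => ρ) ∧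
    cc y * ∫ w, (∑ j, X (w j)) ^ y ∂(Measure.pi fun _ : J => ρ) =
      ∫ l, fx ρ X (Fintype.card J) y l := by
  have hS : ∀ w : J → E, 0 < ∑ j, X (w j) := fun w =>
    Finset.sum_pos (fun j _ => hpos _) Finset.univ_nonempty
  set P : Measure (J → E) := Measure.pi fun _ : J => ρ with hP
  set F : (J → E) × ℝ → ℝ := fun p => hh (Real.exp p.2 * ∑ j, X (p.1 j)) *
    Real.exp (-(y * p.2)) with hF
  have hFm : Measurable F := by
    rw [hF]
    refine (hh_cont.measurable.comp ((Real.measurable_exp.comp measurable_snd).mul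
      ((meas_sum hX).comp measurable_fst))).mul ?_
    fun_prop
  have hF0 : ∀ p, 0 ≤ F p := fun p => mul_nonneg (hh_nonneg (mul_pos (Real.exp_pos _)
    (hS p.1)).le) (Real.exp_pos _).le
  have hw : ∀ l, ∫ w, F (w, l) ∂P = fx ρ X (Fintype.card J) y l := by
    intro l
    simp only [hF]
    rw [integral_mul_const, hP, lap (ρ := ρ) (J := J) hX hpos l]
    rfl
  have hFi : Integrable F (P.prod volume) := by
    rw [integrable_prod_iff' hFm.aestronglyMeasurable]
    constructor
    · refine Eventually.of_forall fun l => ?_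
      have hP1 : IsProbabilityMeasure P := by rw [hP]; infer_instance
      exact (hh_bdd_int (ρ := P) (X := fun w => Real.exp l * ∑ j, X (w j))
        ((meas_sum (J := J) hX).const_mul _) fun w => (mul_pos (Real.exp_pos l)
        (hS w)).le).mul_const (Real.exp (-(y * l)))
    · have e : (fun l => ∫ w, ‖F (w, l)‖ ∂P) = fx ρ X (Fintype.card J) y := by
        funext l
        rw [← hw l]
        refine integral_congr_ae (Eventually.of_forall fun w => ?_)
        simp only
        rw [Real.norm_eq_abs, abs_of_nonneg (hF0 _)]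
      rw [e]
      exact fx_int hX hpos hy hym hc hb
  have hl : ∀ w, ∫ l, F (w, l) = (∑ j, X (w j)) ^ y * cc y := fun w => val_scale (hS w)
  have hcy : 0 < cc y := cc_pos hy (hym.trans hm1)
  constructor
  · have h := hFi.integral_prod_left
    simp only [hl] at h
    have h2 := h.mul_const (cc y)⁻¹
    refine h2.congr (Eventually.of_forall fun w => ?_)
    simp only
    field_simp
  · have h := integral_integral_swap (μ := P) (ν := volume) (f := fun w l => F (w, l)) hFi
    simp only [hl, hw] at h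
    rw [← h, integral_mul_const]
    ring

end Vale.Agent.P146.H676
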