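import Vale.Agent.P146.H676.Vc
import Vale.Agent.P146.H676.Rem2
import Vale.Agent.P146.Bdl.B1

/-!
# P146: the two-level moment as a limit of one-level moments, part 1: the model (helper676)

`Z2 a u w K f = ∑ s, exp (∑ i, (√(u i) K i + √(w i) f i) a s i)`, `G2 m a u w K = E_f Z2 ^ m`.
The one-level system on `S × J`, `J = Z_2 ^ r`, has the coordinates `K i` (variance `u i`),
`N^(-1/2) χ(j) f_χ i` (variance `w i`) and `N^(-1/2) χ(j) R_χ` (variance `v`).
-/

open MeasureTheory ProbabilityTheory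

namespace Vale.Agent.P146.H676

open Vale.Agent.P146 Vale.Agent.P146.H501 Vale.Agent.P146.H863.D29 Vale.Agent.P146.H329
open Vale.Agent.P146.H329.GA (Gg chi_mul chi_pm unit_mul_self)

set_option linter.unusedSectionVars false

/-! ### grouping the coordinates -/

section curry

variable {J κ : Type} [Fintype J] [Fintype κ]

lemma uncurry_mp : MeasurePreserving (fun (w : J → κ → ℝ) (p : J × κ) => w p.1 p.2)
    (Measure.pi fun _ : J => gpi κ) (gpi (J × κ)) := by
  have hm : Measurable fun (w : J → κ → ℝ) (p : J × κ) => w p.1 p.2 := by fun_prop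
  refine ⟨hm, ?_⟩
  unfold gpi
  symm
  refine Measure.pi_eq fun s hs => ?_
  rw [Measure.map_apply hm (MeasurableSet.univ_pi hs)]
  have e : (fun (w : J → κ → ℝ) (p : J × κ) => w p.1 p.2) ⁻¹' Set.univ.pi s =
      Set.univ.pi fun j => Set.univ.pi fun k => s (j, k) := by
    ext w
    simp only [Set.mem_preimage, Set.mem_pi, Set.mem_univ, forall_const, Prod.forall]
  rw [e, Measure.pi_pi]
  simp only [Measure.pi_pi]
  rw [Fintype.prod_prod_type]

lemma int_uncurry {F : (J × κ → ℝ) → ℝ} (hF : Measurable F) :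
    ∫ W, F W ∂(gpi (J × κ)) = ∫ w, F (fun p => w p.1 p.2) ∂(Measure.pi fun _ : J => gpi κ) := by
  have h := (uncurry_mp (J := J) (κ := κ))
  rw [← h.map_eq, integral_map h.measurable.aemeasurable hF.aestronglyMeasurable]

end curry

lemma int_unit {f : ℝ → ℝ} (hf : Measurable f) :
    ∫ w, f (w ()) ∂(gpi Unit) = ∫ r, f r ∂(gaussianReal 0 1) := by
  have h := measurePreserving_eval (fun _ : Unit => gaussianReal 0 1) ()
  unfold gpi
  conv_rhs => rw [← h.map_eq]
  rw [integral_map h.measurable.aemeasurable hf.aestronglyMeasurable]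

/-! ### the family -/

section fam

variable {ι S : Type} [Fintype ι] [Fintype S] [Nonempty S]

/-- the index set of the fine coordinates of one copy -/
abbrev Kt (ι : Type) := ι ⊕ Unit

/-- the copies -/
abbrev Jt (r : ℕ) := Fin r → ℤˣ

/-- the coordinates -/
abbrev It (ι : Type) (r : ℕ) := ι ⊕ (Finset (Fin r) × Kt ι)

/-- the base family -/
noncomputable def bs (a : S → ι → ℝ) (r : ℕ) (p : S × Jt r) : It ι r → ℝ :=
  Sum.elim (a p.1) fun q => chi q.1 p.2 * Sum.elim (a p.1) (fun _ => 1) q.2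

/-- the variances -/
noncomputable def vc (r : ℕ) (v : ℝ) (u w : ι → ℝ) : It ι r → ℝ :=
  Sum.elim u fun q => Sum.elim w (fun _ => v) q.2 / 2 ^ r

lemma gg_bs {a : S → ι → ℝ} {s0 : S} (hg : Gg a a s0) (r : ℕ) :
    Gg (bs a r) (bs a r) (s0, (1 : Jt r)) := by
  refine ⟨fun p => ?_⟩
  obtain ⟨s, j⟩ := p
  obtain ⟨π, χ, χ', h1, h2, h3, h4, h5, h6⟩ := hg.ex s
  have q0 : ∀ e : It ι r, (Sum.elim χ fun q => chi q.1 j * Sum.elim χ (fun _ => 1) q.2) e = 1 ∨
      (Sum.elim χ fun q => chi q.1 j * Sum.elim χ (fun _ => 1) q.2) e = -1 := by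
    rintro (i | ⟨A, (i | _)⟩)
    · exact h3 i
    · simp only [Sum.elim_inr, Sum.elim_inl]
      rcases chi_pm A j with h | h <;> rcases h3 i with h' | h' <;> rw [h, h'] <;> norm_num
    · simp only [Sum.elim_inr]
      rcases chi_pm A j with h | h <;> rw [h] <;> norm_num
  have q1 : ∀ (τ : S × Jt r) (e : It ι r), bs a r ((π.prodCongr (Equiv.mulLeft j)) τ) e =
      (Sum.elim χ fun q => chi q.1 j * Sum.elim χ (fun _ => 1) q.2) e * bs a r τ e := by
    rintro ⟨τ, t⟩ (i | ⟨A, (i | _)⟩)
    · simp only [bs, Sum.elim_inl, Equiv.prodCongr_apply, Prod.map_apply]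
      exact h5 τ i
    · simp only [bs, Sum.elim_inl, Sum.elim_inr, Equiv.prodCongr_apply, Prod.map_apply,
        Equiv.coe_mulLeft]
      rw [chi_mul, h5]
      ring
    · simp only [bs, Sum.elim_inr, Equiv.prodCongr_apply, Prod.map_apply,
        Equiv.coe_mulLeft]
      rw [chi_mul]
      ring
  refine ⟨π.prodCongr (Equiv.mulLeft j), _, _, ?_, ?_, q0, q0, q1, q1⟩
  · simp only [Equiv.prodCongr_apply, Prod.map_apply, Equiv.coe_mulLeft, h1, mul_one]
  · simp only [Equiv.prodCongr_apply, Prod.map_apply, Equiv.coe_mulLeft, h2, unit_mul_self]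

/-- orthogonality of the characters -/
lemma chi_orth (r : ℕ) (s t : Jt r) :
    ∑ A : Finset (Fin r), chi A s * chi A t = if s = t then 2 ^ r else 0 := by
  have h1 : ∀ A : Finset (Fin r), chi A s * chi A t = ∏ v ∈ A, (sp s v * sp t v) := by
    intro A
    unfold chi
    rw [Finset.prod_mul_distrib]
  simp only [h1]
  have h2 : ∑ A : Finset (Fin r), ∏ v ∈ A, (sp s v * sp t v) = ∏ v, (1 + sp s v * sp t v) := by
    rw [Finset.prod_one_add]
    rfl
  rw [h2]
  split_ifs with h
  · subst h
    have : ∀ v, 1 + sp s v * sp s v = 2 := by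
      intro v
      have : sp s v * sp s v = 1 := by
        unfold sp
        rcases Int.units_eq_one_or (s v) with h | h <;> rw [h] <;> simp
      rw [this]
      norm_num
    simp only [this, Finset.prod_const, Finset.card_univ, Fintype.card_fin]
  · obtain ⟨v, hv⟩ := Function.ne_iff.1 h
    refine Finset.prod_eq_zero (Finset.mem_univ v) ?_
    unfold sp
    rcases Int.units_eq_one_or (s v) with h1 | h1 <;>
      rcases Int.units_eq_one_or (t v) with h2 | h2
    · exact absurd (h1.trans h2.symm) hv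
    · rw [h1, h2]; norm_num
    · rw [h1, h2]; norm_num
    · exact absurd (h1.trans h2.symm) hv

/-- the independent copies -/
noncomputable def ic [DecidableEq S] (a : S → ι → ℝ) (r : ℕ) (v : ℝ) (u w : ι → ℝ) (p : S × Jt r) :
    ι ⊕ (Jt r × Kt ι) → ℝ :=
  Sum.elim (fu a u p.1) fun q => if q.1 = p.2 then
    Sum.elim (fu a w p.1) (fun _ => Real.sqrt v) q.2 else 0

lemma vc_nonneg {r : ℕ} {v : ℝ} {u w : ι → ℝ} (hv : 0 ≤ v) (hu : ∀ i, 0 ≤ u i)
    (hw : ∀ i, 0 ≤ w i) (e : It ι r) : 0 ≤ vc r v u w e := by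
  unfold vc
  rcases e with i | ⟨A, (i | _)⟩
  · exact hu i
  · simp only [Sum.elim_inr, Sum.elim_inl]
    have := hw i
    positivity
  · simp only [Sum.elim_inr]
    positivity

lemma gram_bs [DecidableEq S] (a : S → ι → ℝ) {r : ℕ} {v : ℝ} {u w : ι → ℝ} (hv : 0 ≤ v)
    (hu : ∀ i, 0 ≤ u i) (hw : ∀ i, 0 ≤ w i) (p q : S × Jt r) :
    ∑ e, fu (bs a r) (vc r v u w) p e * fu (bs a r) (vc r v u w) q e =
      ∑ e, ic a r v u w p e * ic a r v u w q e := by
  rw [gram_fu _ (vc_nonneg hv hu hw)]
  unfold gu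
  rw [Fintype.sum_sum_type, Fintype.sum_sum_type]
  congr 1
  · refine Finset.sum_congr rfl fun i _ => ?_
    simp only [vc, bs, ic, Sum.elim_inl, fu]
    have := Real.mul_self_sqrt (hu i)
    linear_combination (-(a p.1 i * a q.1 i)) * this
  · rw [Fintype.sum_prod_type, Fintype.sum_prod_type]
    have e1 : ∀ A : Finset (Fin r), ∑ k : Kt ι, vc r v u w (Sum.inr (A, k)) *
        (bs a r p (Sum.inr (A, k)) * bs a r q (Sum.inr (A, k))) =
        chi A p.2 * chi A q.2 * (((∑ i, w i * (a p.1 i * a q.1 i)) + v) / 2 ^ r) := by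
      intro A
      rw [Fintype.sum_sum_type]
      simp only [vc, bs, Sum.elim_inr, Sum.elim_inl, Finset.univ_unique, Finset.sum_singleton]
      rw [add_div, mul_add, Finset.sum_div, Finset.mul_sum]
      congr 1
      · exact Finset.sum_congr rfl fun i _ => by ring
      · ring
    simp only [e1]
    rw [← Finset.sum_mul, chi_orth]
    have e2 : ∀ j : Jt r, ∑ k : Kt ι, ic a r v u w p (Sum.inr (j, k)) *
        ic a r v u w q (Sum.inr (j, k)) = if j = p.2 then (if p.2 = q.2 then
          (∑ i, w i * (a p.1 i * a q.1 i)) + v else 0) else 0 := by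
      intro j
      simp only [ic, Sum.elim_inr]
      by_cases hj : j = p.2
      · subst hj
        simp only [if_true]
        split_ifs with h
        · rw [Fintype.sum_sum_type]
          simp only [Sum.elim_inr, Sum.elim_inl, Finset.univ_unique, Finset.sum_singleton,
            Real.mul_self_sqrt hv]
          congr 1
          refine Finset.sum_congr rfl fun i _ => ?_
          simp only [fu]
          have := Real.mul_self_sqrt (hw i)
          linear_combination (a p.1 i * a q.1 i) * this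
        · simp
      · simp [hj]
    simp only [e2, Finset.sum_ite_eq', Finset.mem_univ, if_true]
    split_ifs with h
    · field_simp
    · simp

/-- the two representations have the same moments -/
lemma moment_ic [DecidableEq ι] [DecidableEq S] (a : S → ι → ℝ) {r : ℕ} {v : ℝ} {u w : ι → ℝ}
    (hv : 0 ≤ v) (hu : ∀ i, 0 ≤ u i) (hw : ∀ i, 0 ≤ w i) (y : ℝ) :
    ∫ g, zp y (fu (bs a r) (vc r v u w)) (fun _ => 0) g ∂(gpi (It ι r)) =
      ∫ g, zp y (ic a r v u w) (fun _ => 0) g ∂(gpi (ι ⊕ (Jt r × Kt ι))) := by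
  have hF : Measurable fun z : S × Jt r → ℝ => Real.exp (y * Real.log (∑ p, Real.exp (z p))) := by
    fun_prop
  have h := Vale.Agent.P157.Par.integral_lin_congr (U := fu (bs a r) (vc r v u w))
    (V := ic a r v u w) (fun p q => gram_bs a hv hu hw p q) hF
  have e : ∀ {κ : Type} [Fintype κ] (b : S × Jt r → κ → ℝ) (g : κ → ℝ),
      zp y b (fun _ => 0) g = Real.exp (y * Real.log (∑ p, Real.exp
        (Vale.Agent.P157.Par.lin b g p))) := by
    intro κ _ b g
    unfold zp zz wt Vale.Agent.P157.Par.lin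
    simp only [add_zero]
  simp only [e]
  exact h

end fam

end Vale.Agent.P146.H676
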