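import Vale.Agent.P146.H676.Rem3

/-!
# P146: the two-level moment as a limit of one-level moments, part 2: the limit (helper676)
-/

open MeasureTheory ProbabilityTheory Filter Topology

namespace Vale.Agent.P146.H676

open Vale.Agent.P146 Vale.Agent.P146.H501 Vale.Agent.P146.H863.D29 Vale.Agent.P146.H329
open Vale.Agent.P146.H329.GA (Gg)

set_option linter.unusedSectionVars false
set_option linter.unusedVariables false

variable {ι S : Type} [Fintype ι] [Fintype S] [Nonempty S]

/-- the partition function with two fields -/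
noncomputable def Z2 (a : S → ι → ℝ) (u w : ι → ℝ) (K f : ι → ℝ) : ℝ :=
  ∑ s, Real.exp (∑ i, fu a u s i * K i + ∑ i, fu a w s i * f i)

/-- the fine average -/
noncomputable def G2 (a : S → ι → ℝ) (u w : ι → ℝ) (m : ℝ) (K : ι → ℝ) : ℝ :=
  ∫ f, Z2 a u w K f ^ m ∂(gpi ι)

/-- the two-level moment `E_K (E_f Z ^ m) ^ (y / m)` -/
noncomputable def M2 (a : S → ι → ℝ) (u w : ι → ℝ) (y m : ℝ) : ℝ :=
  ∫ K, G2 a u w m K ^ (y / m) ∂(gpi ι)

variable (a : S → ι → ℝ) (u w : ι → ℝ)

lemma Z2_pos (K f : ι → ℝ) : 0 < Z2 a u w K f :=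
  Finset.sum_pos (fun _ _ => Real.exp_pos _) Finset.univ_nonempty

/-- the family on the pairs of fields -/
noncomputable def pf (s : S) : ι ⊕ ι → ℝ := Sum.elim (fu a u s) (fu a w s)

lemma zz_pf (K f : ι → ℝ) : zz (pf a u w) (fun _ => 0) (Sum.elim K f) = Z2 a u w K f := by
  unfold zz wt Z2 pf
  refine Finset.sum_congr rfl fun s _ => ?_
  rw [Fintype.sum_sum_type]
  simp only [Sum.elim_inl, Sum.elim_inr, add_zero]

lemma zp_pf (m : ℝ) (K f : ι → ℝ) :
    zp m (pf a u w) (fun _ => 0) (Sum.elim K f) = Z2 a u w K f ^ m := by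
  unfold zp
  rw [zz_pf, Real.rpow_def_of_pos (Z2_pos a u w K f)]
  congr 1
  ring

lemma Z2_cont : Continuous fun p : (ι → ℝ) × (ι → ℝ) => Z2 a u w p.1 p.2 := by
  unfold Z2
  fun_prop

lemma Z2_cont' (K : ι → ℝ) : Continuous (Z2 a u w K) := by
  unfold Z2
  fun_prop

lemma Z2_pow_dom (m : ℝ) (K : ι → ℝ) : Dom fun f => Z2 a u w K f ^ m := by
  have h := dom_slice (zp_dom m (pf a u w) (fun _ => 0)) K
  simp only [zp_pf] at h
  exact h

lemma Z2_pow_int (m : ℝ) (K : ι → ℝ) : Integrable (fun f => Z2 a u w K f ^ m) (gpi ι) :=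
  (Z2_pow_dom a u w m K).integrable

lemma G2_pos (m : ℝ) (K : ι → ℝ) : 0 < G2 a u w m K := by
  unfold G2
  rw [integral_pos_iff_support_of_nonneg (fun f => (Real.rpow_pos_of_pos (Z2_pos a u w K f) m).le)
    (Z2_pow_int a u w m K)]
  have : (Function.support fun f => Z2 a u w K f ^ m) = Set.univ := by
    ext f
    simp only [Function.mem_support, Set.mem_univ, iff_true]
    exact (Real.rpow_pos_of_pos (Z2_pos a u w K f) m).ne'
  rw [this]
  simp

lemma G2_meas (m : ℝ) : Measurable (G2 a u w m) := by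
  have h : Measurable fun p : (ι → ℝ) × (ι → ℝ) => Z2 a u w p.1 p.2 ^ m :=
    (Z2_cont a u w).measurable.pow_const m
  exact (h.stronglyMeasurable.integral_prod_right' (ν := gpi ι)).measurable

/-- Fubini -/
lemma prod_int {ι κ : Type} [Fintype ι] [Fintype κ] {F : (ι ⊕ κ → ℝ) → ℝ}
    (hF : Integrable F (gpi (ι ⊕ κ))) :
    Integrable (fun q : (ι → ℝ) × (κ → ℝ) => F (Sum.elim q.1 q.2)) ((gpi ι).prod (gpi κ)) := by
  have hmp := measurePreserving_sumPiEquivProdPi_symm (X := fun _ : ι ⊕ κ => ℝ)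
    (fun _ => gaussianReal 0 1)
  set T := (MeasurableEquiv.sumPiEquivProdPi (fun _ : ι ⊕ κ => ℝ)).symm with hT
  have h2 : Integrable (fun q => F (T q)) ((gpi ι).prod (gpi κ)) :=
    (hmp.integrable_comp_emb T.measurableEmbedding).2 hF
  refine h2.congr (Eventually.of_forall fun q => ?_)
  simp only
  congr 1

lemma G2_int (m : ℝ) : Integrable (G2 a u w m) (gpi ι) := by
  have h := (prod_int (zp_dom m (pf a u w) (fun _ => 0)).integrable).integral_prod_left
  simp only [zp_pf] at h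
  exact h

lemma G2_pow_int {y m : ℝ} (hy : 0 < y) (hym : y < m) :
    Integrable (fun K => G2 a u w m K ^ (y / m)) (gpi ι) := by
  have hm : 0 < m := hy.trans hym
  refine ((integrable_const (1 : ℝ)).add (G2_int a u w m)).mono'
    ((G2_meas a u w m).pow_const _).aestronglyMeasurable (Eventually.of_forall fun K => ?_)
  have hG := G2_pos a u w m K
  rw [Real.norm_eq_abs, abs_of_pos (Real.rpow_pos_of_pos hG _)]
  simp only [Pi.add_apply]
  rcases le_total (G2 a u w m K) 1 with h | h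
  · have := Real.rpow_le_one hG.le h (div_pos hy hm).le
    linarith
  · have := Real.rpow_le_rpow_of_exponent_le h ((div_le_one hm).2 hym.le)
    rw [Real.rpow_one] at this
    linarith

lemma M2_pos {y m : ℝ} (hy : 0 < y) (hym : y < m) : 0 < M2 a u w y m := by
  unfold M2
  rw [integral_pos_iff_support_of_nonneg
    (fun K => (Real.rpow_pos_of_pos (G2_pos a u w m K) _).le) (G2_pow_int a u w hy hym)]
  have : (Function.support fun K => G2 a u w m K ^ (y / m)) = Set.univ := by
    ext f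
    simp only [Function.mem_support, Set.mem_univ, iff_true]
    exact (Real.rpow_pos_of_pos (G2_pos a u w m f) _).ne'
  rw [this]
  simp

/-! ### the copies -/

/-- the variable of one copy -/
noncomputable def XK (m v : ℝ) (K : ι → ℝ) (e : Kt ι → ℝ) : ℝ :=
  Real.exp (Real.sqrt v * e (Sum.inr ()) - aa m v) * Z2 a u w K fun i => e (Sum.inl i)

lemma XK_pos (m v : ℝ) (K : ι → ℝ) (e : Kt ι → ℝ) : 0 < XK a u w m v K e :=
  mul_pos (Real.exp_pos _) (Z2_pos _ _ _ _ _)

lemma XK_cont (m v : ℝ) (K : ι → ℝ) : Continuous (XK a u w m v K) := by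
  unfold XK Z2
  fun_prop

/-- `qx` of one copy is `qq` -/
lemma qx_XK (m v : ℝ) (K : ι → ℝ) (l : ℝ) :
    qx (gpi (Kt ι)) (XK a u w m v K) l = qq (gpi ι) m v (Z2 a u w K) l := by
  unfold qx
  rw [int_sum_type (hh_bdd_int ((XK_cont a u w m v K).measurable.const_mul _)
    fun e => (mul_pos (Real.exp_pos l) (XK_pos a u w m v K e)).le)]
  unfold qq
  refine integral_congr_ae (Eventually.of_forall fun f => ?_)
  simp only [XK, Sum.elim_inl, Sum.elim_inr]
  exact int_unit (f := fun r => hh (Real.exp l * (Real.exp (Real.sqrt v * r - aa m v) *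
    Z2 a u w K f))) (hh_cont.measurable.comp (by fun_prop))

lemma lin_ic [DecidableEq S] (r : ℕ) (v : ℝ) (K : ι → ℝ) (W : Jt r → Kt ι → ℝ) (p : S × Jt r) :
    ∑ e, ic a r v u w p e * (Sum.elim K fun q : Jt r × Kt ι => W q.1 q.2) e =
      (∑ i, fu a u p.1 i * K i + ∑ i, fu a w p.1 i * W p.2 (Sum.inl i)) +
        Real.sqrt v * W p.2 (Sum.inr ()) := by
  rw [Fintype.sum_sum_type, Fintype.sum_prod_type, add_assoc]
  simp only [ic, Sum.elim_inl, Sum.elim_inr]
  congr 1
  rw [Finset.sum_eq_single p.2]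
  · simp only [if_true]
    rw [Fintype.sum_sum_type]
    simp only [Sum.elim_inl, Sum.elim_inr, Finset.univ_unique, Finset.sum_singleton]
  · intro j _ hj
    simp [hj]
  · intro h
    exact absurd (Finset.mem_univ _) h

lemma zp_ic [DecidableEq S] (r : ℕ) (m v y : ℝ) (K : ι → ℝ) (W : Jt r → Kt ι → ℝ) :
    zp y (ic a r v u w) (fun _ => 0) (Sum.elim K fun q : Jt r × Kt ι => W q.1 q.2) =
      Real.exp (y * aa m v) * (∑ j, XK a u w m v K (W j)) ^ y := by
  have h1 : zz (ic a r v u w) (fun _ => 0) (Sum.elim K fun q : Jt r × Kt ι => W q.1 q.2) =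
      Real.exp (aa m v) * ∑ j, XK a u w m v K (W j) := by
    unfold zz wt
    simp only [lin_ic, add_zero]
    rw [Fintype.sum_prod_type_right, Finset.mul_sum]
    refine Finset.sum_congr rfl fun j _ => ?_
    unfold XK Z2
    rw [← mul_assoc, ← Real.exp_add, Finset.mul_sum]
    refine Finset.sum_congr rfl fun s _ => ?_
    rw [← Real.exp_add]
    congr 1
    ring
  have h2 : 0 < ∑ j, XK a u w m v K (W j) :=
    Finset.sum_pos (fun _ _ => XK_pos _ _ _ _ _ _ _) Finset.univ_nonempty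
  unfold zp
  rw [h1, Real.log_mul (Real.exp_pos _).ne' h2.ne', Real.log_exp, mul_add, Real.exp_add,
    Real.rpow_def_of_pos h2, mul_comm y (Real.log _)]

/-- the bound for one copy -/
lemma XK_le {m v : ℝ} (hm : 0 < m) (hm1 : m < 1) (hv : 0 < v) {N : ℕ}
    (hN : Real.exp (m ^ 2 * v / 2) = N) (K : ι → ℝ) (l : ℝ) :
    (N : ℝ) * qx (gpi (Kt ι)) (XK a u w m v K) l ≤ cc m * G2 a u w m K * Real.exp (m * l) := by
  rw [qx_XK, ← hN]
  exact qq_le hm hm1 hv (fun f => Z2_pos a u w K f) (Z2_cont' a u w K).measurable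
    (Z2_pow_int a u w m K) l

/-- the integrand of the limit -/
noncomputable def fq (y m v : ℝ) (N : ℕ) (K : ι → ℝ) (l : ℝ) : ℝ :=
  (1 - (1 - qq (gpi ι) m v (Z2 a u w K) l) ^ N) * Real.exp (-(y * l))

/-- **the finite formula** -/
theorem ic_formula [DecidableEq S] {y m v : ℝ} (hy : 0 < y) (hym : y < m) (hm1 : m < 1)
    (hv : 0 < v) {r : ℕ} (hN : Real.exp (m ^ 2 * v / 2) = ((2 ^ r : ℕ) : ℝ)) :
    cc y * Real.exp (-(y * aa m v)) *
      ∫ g, zp y (ic a r v u w) (fun _ => 0) g ∂(gpi (ι ⊕ (Jt r × Kt ι))) =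
      ∫ K, (∫ l, fq a u w y m v (2 ^ r) K l) ∂(gpi ι) := by
  have hcard : Fintype.card (Jt r) = 2 ^ r := by simp
  rw [int_sum_type (zp_dom y (ic a r v u w) (fun _ => 0)).integrable, ← integral_const_mul]
  refine integral_congr_ae (Eventually.of_forall fun K => ?_)
  simp only
  have hD := dom_slice (zp_dom y (ic a r v u w) (fun _ => 0)) K
  rw [int_uncurry hD.cont.measurable]
  simp only [zp_ic a u w r m v y K]
  rw [integral_const_mul]
  have hm : 0 < m := hy.trans hym
  have hb : ∀ l, (Fintype.card (Jt r) : ℝ) * qx (gpi (Kt ι)) (XK a u w m v K) l ≤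
      cc m * G2 a u w m K * Real.exp (m * l) := by
    intro l
    rw [hcard]
    exact XK_le a u w hm hm1 hv hN K l
  have h := (pi_moment (J := Jt r) (ρ := gpi (Kt ι)) (X := XK a u w m v K) (y := y) (m := m)
    (c := cc m * G2 a u w m K) (XK_cont a u w m v K).measurable (XK_pos a u w m v K) hy hym hm1
    (mul_pos (cc_pos hm hm1) (G2_pos a u w m K)).le hb).2
  have e : Real.exp (-(y * aa m v)) * Real.exp (y * aa m v) = 1 := by
    rw [← Real.exp_add, neg_add_cancel, Real.exp_zero]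
  calc cc y * Real.exp (-(y * aa m v)) * (Real.exp (y * aa m v) *
        ∫ W, (∑ j, XK a u w m v K (W j)) ^ y ∂(Measure.pi fun _ : Jt r => gpi (Kt ι))) =
        (Real.exp (-(y * aa m v)) * Real.exp (y * aa m v)) * (cc y *
        ∫ W, (∑ j, XK a u w m v K (W j)) ^ y ∂(Measure.pi fun _ : Jt r => gpi (Kt ι))) := by
          ring
    _ = cc y * ∫ W, (∑ j, XK a u w m v K (W j)) ^ y ∂(Measure.pi fun _ : Jt r => gpi (Kt ι)) := by
          rw [e, one_mul]
    _ = ∫ l, fx (gpi (Kt ι)) (XK a u w m v K) (Fintype.card (Jt r)) y l := h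
    _ = _ := by
          refine integral_congr_ae (Eventually.of_forall fun l => ?_)
          simp only [fx, fq, hcard, qx_XK]

/-! ### the limit -/

lemma qq_meas0 (m v : ℝ) :
    Measurable fun p : ((ι → ℝ) × ℝ) × (ι → ℝ) =>
      ∫ r, hh (Real.exp p.1.2 * (Real.exp (Real.sqrt v * r - aa m v) *
        Z2 a u w p.1.1 p.2)) ∂(gaussianReal 0 1) := by
  have h0 : Continuous fun p : (((ι → ℝ) × ℝ) × (ι → ℝ)) × ℝ => Z2 a u w p.1.1.1 p.1.2 := by
    unfold Z2
    fun_prop
  have h1 : Continuous fun p : (((ι → ℝ) × ℝ) × (ι → ℝ)) × ℝ =>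
      Real.exp p.1.1.2 * (Real.exp (Real.sqrt v * p.2 - aa m v) * Z2 a u w p.1.1.1 p.1.2) :=
    (by fun_prop : Continuous fun p : (((ι → ℝ) × ℝ) × (ι → ℝ)) × ℝ =>
      Real.exp p.1.1.2).mul ((by fun_prop : Continuous fun p : (((ι → ℝ) × ℝ) × (ι → ℝ)) × ℝ =>
      Real.exp (Real.sqrt v * p.2 - aa m v)).mul h0)
  have h2 := (hh_cont.comp h1).stronglyMeasurable
  exact (h2.integral_prod_right' (ν := gaussianReal 0 1)).measurable

lemma qq_meas (m v : ℝ) :
    Measurable fun p : (ι → ℝ) × ℝ => qq (gpi ι) m v (Z2 a u w p.1) p.2 := by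
  unfold qq
  exact ((qq_meas0 a u w m v).stronglyMeasurable.integral_prod_right' (ν := gpi ι)).measurable

lemma fq_meas (y m v : ℝ) (N : ℕ) :
    Measurable fun p : (ι → ℝ) × ℝ => fq a u w y m v N p.1 p.2 := by
  unfold fq
  exact (measurable_const.sub ((measurable_const.sub (qq_meas a u w m v)).pow_const N)).mul
    (by fun_prop)

variable {a u w}

lemma fq_nonneg (y m v : ℝ) (N : ℕ) (K : ι → ℝ) (l : ℝ) : 0 ≤ fq a u w y m v N K l :=
  mul_nonneg (one_sub_pow_nonneg (qq_nonneg (fun f => Z2_pos a u w K f) l)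
    (qq_le_one (fun f => Z2_pos a u w K f) l) N) (Real.exp_pos _).le

lemma fq_le {y m v : ℝ} (hm : 0 < m) (hm1 : m < 1) (hv : 0 < v) {N : ℕ}
    (hN : Real.exp (m ^ 2 * v / 2) = N) (K : ι → ℝ) (l : ℝ) :
    fq a u w y m v N K l ≤ dw y m (cc m * G2 a u w m K) l := by
  refine mul_le_mul_of_nonneg_right ?_ (Real.exp_pos _).le
  refine (one_sub_pow_le (qq_nonneg (fun f => Z2_pos a u w K f) l)
    (qq_le_one (fun f => Z2_pos a u w K f) l) N).trans (min_le_min le_rfl ?_)
  rw [← hN]
  exact qq_le hm hm1 hv (fun f => Z2_pos a u w K f) (Z2_cont' a u w K).measurable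
    (Z2_pow_int a u w m K) l

/-- the variances of the random energy model -/
noncomputable def vv (m : ℝ) (N : ℕ) : ℝ := 2 * Real.log N / m ^ 2

lemma vv_pos {m : ℝ} (hm : 0 < m) {N : ℕ} (hN : 2 ≤ N) : 0 < vv m N := by
  have h : (1 : ℝ) < N := by exact_mod_cast (by omega : 1 < N)
  have := Real.log_pos h
  unfold vv
  positivity

lemma vv_exp {m : ℝ} (hm : 0 < m) {N : ℕ} (hN : 2 ≤ N) : Real.exp (m ^ 2 * vv m N / 2) = N := by
  have h : (0 : ℝ) < N := by exact_mod_cast (by omega : 0 < N)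
  have e : m ^ 2 * vv m N / 2 = Real.log N := by
    unfold vv
    field_simp
  rw [e, Real.exp_log h]

lemma vv_lim {m : ℝ} (hm : 0 < m) : Tendsto (vv m) atTop atTop := by
  unfold vv
  have h : Tendsto (fun N : ℕ => Real.log N) atTop atTop :=
    Real.tendsto_log_atTop.comp tendsto_natCast_atTop_atTop
  exact (h.const_mul_atTop (by norm_num : (0 : ℝ) < 2)).atTop_div_const (by positivity)

lemma fq_lim {y m : ℝ} (hm : 0 < m) (hm1 : m < 1) (K : ι → ℝ) (l : ℝ) :
    Tendsto (fun N => fq a u w y m (vv m N) N K l) atTop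
      (𝓝 (sw y m (cc m * G2 a u w m K) l)) := by
  have hv0 : ∀ᶠ N in atTop, 0 < vv m N := by
    filter_upwards [eventually_ge_atTop 2] with N hN
    exact vv_pos hm hN
  have h1 := qq_lim (μ := gpi ι) hm hm1 (vv_lim hm) hv0 (fun f => Z2_pos a u w K f)
    (Z2_cont' a u w K).measurable (Z2_pow_int a u w m K) l
  have h2 : Tendsto (fun N : ℕ => (N : ℝ) * -qq (gpi ι) m (vv m N) (Z2 a u w K) l) atTop
      (𝓝 (-(cc m * G2 a u w m K * Real.exp (m * l)))) := by
    refine (h1.neg).congr' ?_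
    filter_upwards [eventually_ge_atTop 2] with N hN
    rw [vv_exp hm hN]
    ring
  have h3 := Real.tendsto_one_add_pow_exp_of_tendsto h2
  have h4 := (h3.const_sub 1).mul_const (Real.exp (-(y * l)))
  refine h4.congr fun N => ?_
  unfold fq
  rfl

/-- the inner limit -/
lemma inner_lim {y m : ℝ} (hy : 0 < y) (hym : y < m) (hm1 : m < 1) (K : ι → ℝ) :
    Tendsto (fun N => ∫ l, fq a u w y m (vv m N) N K l) atTop
      (𝓝 (G2 a u w m K ^ (y / m) * ∫ l, sw y m (cc m) l)) := by
  have hm : 0 < m := hy.trans hym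
  rw [← val_sw hm (G2_pos a u w m K)]
  refine tendsto_integral_filter_of_dominated_convergence
    (dw y m (cc m * G2 a u w m K)) ?_ ?_ (dw_int hy hym (mul_pos (cc_pos hm hm1)
      (G2_pos a u w m K)).le) ?_
  · refine Eventually.of_forall fun N => ?_
    exact ((fq_meas a u w y m (vv m N) N).comp (measurable_const.prodMk
      measurable_id)).aestronglyMeasurable
  · filter_upwards [eventually_ge_atTop 2] with N hN
    refine Eventually.of_forall fun l => ?_
    rw [Real.norm_eq_abs, abs_of_nonneg (fq_nonneg _ _ _ _ _ _)]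
    exact fq_le hm hm1 (vv_pos hm hN) (vv_exp hm hN) K l
  · exact Eventually.of_forall fun l => fq_lim hm hm1 K l

/-- **the limit of the two-level integrals** -/
theorem outer_lim {y m : ℝ} (hy : 0 < y) (hym : y < m) (hm1 : m < 1) :
    Tendsto (fun N => ∫ K, (∫ l, fq a u w y m (vv m N) N K l) ∂(gpi ι)) atTop
      (𝓝 (M2 a u w y m * ∫ l, sw y m (cc m) l)) := by
  have hm : 0 < m := hy.trans hym
  unfold M2
  rw [← integral_mul_const]
  refine tendsto_integral_filter_of_dominated_convergence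
    (fun K => G2 a u w m K ^ (y / m) * ∫ l, dw y m (cc m) l) ?_ ?_
    ((G2_pow_int a u w hy hym).mul_const _) ?_
  · refine Eventually.of_forall fun N => ?_
    exact ((fq_meas a u w y m (vv m N) N).stronglyMeasurable.integral_prod_right'
      (ν := volume)).aestronglyMeasurable
  · filter_upwards [eventually_ge_atTop 2] with N hN
    refine Eventually.of_forall fun K => ?_
    have h0 : 0 ≤ ∫ l, fq a u w y m (vv m N) N K l :=
      integral_nonneg fun l => fq_nonneg _ _ _ _ _ _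
    rw [Real.norm_eq_abs, abs_of_nonneg h0, ← val_dw hm (G2_pos a u w m K)]
    refine integral_mono_of_nonneg (Eventually.of_forall fun l => fq_nonneg _ _ _ _ _ _)
      (dw_int hy hym (mul_pos (cc_pos hm hm1) (G2_pos a u w m K)).le)
      (Eventually.of_forall fun l => ?_)
    exact fq_le hm hm1 (vv_pos hm hN) (vv_exp hm hN) K l
  · exact Eventually.of_forall fun K => inner_lim hy hym hm1 K

end Vale.Agent.P146.H676
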