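import Vale.Agent.P146.H676.Rem4

/-!
# P146: joint concavity of the two-level log-moment in the variances (helper676)

`M2 a u w y m = E_K (E_f Z ^ m) ^ (y / m)`, `Z = ∑ s, exp (∑ i, (√(u i) K i + √(w i) f i) a s i)`.
For `0 < y < m < 1` and a family which is invariant under a transitive group of sign changes
(`Gg a a s0`) the function `(u, w) ↦ log (M2 a u w y m)` is concave on `{u, w ≥ 0}`.
The proof: the two-level moment is the limit of the moments of the order `y` of the partition
function of `S × Z_2 ^ r` with a random energy model at the edge on the second factor; those are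
concave in the variances (`conc_moment`).
-/

open MeasureTheory ProbabilityTheory Filter Topology

set_option linter.unusedSectionVars false

namespace Vale.Agent.P146.H676

open Vale.Agent.P146 Vale.Agent.P146.H501 Vale.Agent.P146.H863.D29 Vale.Agent.P146.H329
open Vale.Agent.P146.H329.GA (Gg)

variable {ι S : Type} [Fintype ι] [Fintype S] [Nonempty S] {a : S → ι → ℝ} {s0 : S}

/-- the pairs of nonnegative vectors -/
def Qs (ι : Type) : Set ((ι → ℝ) × (ι → ℝ)) := {p | (∀ i, 0 ≤ p.1 i) ∧ ∀ i, 0 ≤ p.2 i}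

lemma Qs_convex : Convex ℝ (Qs ι) := by
  intro p hp q hq α β hα hβ _
  refine ⟨fun i => ?_, fun i => ?_⟩
  · have := hp.1 i
    have := hq.1 i
    simp only [Prod.fst_add, Prod.smul_fst, Pi.add_apply, Pi.smul_apply, smul_eq_mul]
    positivity
  · have := hp.2 i
    have := hq.2 i
    simp only [Prod.snd_add, Prod.smul_snd, Pi.add_apply, Pi.smul_apply, smul_eq_mul]
    positivity

/-- the one-level moment -/
noncomputable def Om (a : S → ι → ℝ) (y : ℝ) (r : ℕ) (v : ℝ) (p : (ι → ℝ) × (ι → ℝ)) : ℝ :=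
  ∫ g, zp y (fu (bs a r) (vc r v p.1 p.2)) (fun _ => 0) g ∂(gpi (It ι r))

lemma Om_conc (hg : Gg a a s0) {y v : ℝ} (hy : 0 ≤ y) (hy1 : y ≤ 1) (hv : 0 ≤ v) (r : ℕ) :
    ConcaveOn ℝ (Qs ι) fun p => Real.log (Om a y r v p) := by
  refine ⟨Qs_convex, fun p hp q hq α β hα hβ hαβ => ?_⟩
  have h := (conc_moment hy hy1 (gg_bs hg r)).2 (vc_nonneg (r := r) hv hp.1 hp.2)
    (vc_nonneg (r := r) hv hq.1 hq.2) hα hβ hαβ
  have e : α • vc r v p.1 p.2 + β • vc r v q.1 q.2 =
      vc r v (α • p + β • q).1 (α • p + β • q).2 := by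
    funext e
    simp only [Pi.add_apply, Pi.smul_apply, smul_eq_mul, Prod.fst_add, Prod.snd_add,
      Prod.smul_fst, Prod.smul_snd]
    unfold vc
    rcases e with i | ⟨A, (i | _)⟩
    · simp only [Sum.elim_inl, Pi.add_apply, Pi.smul_apply, smul_eq_mul]
    · simp only [Sum.elim_inl, Sum.elim_inr, Pi.add_apply, Pi.smul_apply, smul_eq_mul]
      ring
    · simp only [Sum.elim_inr]
      have : α * (v / 2 ^ r) + β * (v / 2 ^ r) = (α + β) * (v / 2 ^ r) := by ring
      rw [this, hαβ, one_mul]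
  rw [e] at h
  exact h

/-- the one-level moments converge to the two-level moment -/
lemma Om_lim (a : S → ι → ℝ) {y m : ℝ} (hy : 0 < y) (hym : y < m) (hm1 : m < 1)
    {p : (ι → ℝ) × (ι → ℝ)} (hp : p ∈ Qs ι) :
    Tendsto (fun r : ℕ => Real.log (cc y * Real.exp (-(y * aa m (vv m (2 ^ r)))) *
      Om a y r (vv m (2 ^ r)) p)) atTop
      (𝓝 (Real.log (M2 a p.1 p.2 y m * ∫ l, sw y m (cc m) l))) := by
  classical
  have hm : 0 < m := hy.trans hym
  have h0 := outer_lim (a := a) (u := p.1) (w := p.2) hy hym hm1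
  have h2 : Tendsto (fun r : ℕ => 2 ^ r) atTop atTop :=
    tendsto_pow_atTop_atTop_of_one_lt (by norm_num : 1 < 2)
  have h1 := h0.comp h2
  have hne : M2 a p.1 p.2 y m * ∫ l, sw y m (cc m) l ≠ 0 :=
    (mul_pos (M2_pos a p.1 p.2 hy hym) (sw_int_pos hy hym (cc_pos hm hm1))).ne'
  refine (Tendsto.log h1 hne).congr' ?_
  filter_upwards [eventually_ge_atTop 1] with r hr
  have hN : 2 ≤ 2 ^ r := by
    calc 2 = 2 ^ 1 := by norm_num
      _ ≤ 2 ^ r := Nat.pow_le_pow_right (by norm_num) hr
  have hv := vv_pos hm hN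
  simp only [Function.comp]
  rw [← ic_formula a p.1 p.2 hy hym hm1 hv (vv_exp hm hN)]
  unfold Om
  rw [moment_ic a hv.le hp.1 hp.2 y]

/-- **JOINT CONCAVITY of the two-level log-moment in the variances of the two levels** -/
theorem conc_two (hg : Gg a a s0) {y m : ℝ} (hy : 0 < y) (hym : y < m) (hm1 : m < 1) :
    ConcaveOn ℝ (Qs ι) fun p => Real.log (M2 a p.1 p.2 y m) := by
  refine ⟨Qs_convex, fun p hp q hq α β hα hβ hαβ => ?_⟩
  have hm : 0 < m := hy.trans hym
  have hs := sw_int_pos hy hym (cc_pos hm hm1)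
  have hlog : ∀ p : (ι → ℝ) × (ι → ℝ), Real.log (M2 a p.1 p.2 y m * ∫ l, sw y m (cc m) l) =
      Real.log (M2 a p.1 p.2 y m) + Real.log (∫ l, sw y m (cc m) l) := fun p =>
    Real.log_mul (M2_pos a p.1 p.2 hy hym).ne' hs.ne'
  have hpq : α • p + β • q ∈ Qs ι := Qs_convex hp hq hα hβ hαβ
  have l1 := Om_lim a hy hym hm1 hp
  have l2 := Om_lim a hy hym hm1 hq
  have l3 := Om_lim a hy hym hm1 hpq
  have hle : ∀ᶠ r : ℕ in atTop,
      α * Real.log (cc y * Real.exp (-(y * aa m (vv m (2 ^ r)))) * Om a y r (vv m (2 ^ r)) p) +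
      β * Real.log (cc y * Real.exp (-(y * aa m (vv m (2 ^ r)))) * Om a y r (vv m (2 ^ r)) q) ≤
      Real.log (cc y * Real.exp (-(y * aa m (vv m (2 ^ r)))) *
        Om a y r (vv m (2 ^ r)) (α • p + β • q)) := by
    filter_upwards [eventually_ge_atTop 1] with r hr
    have hN : 2 ≤ 2 ^ r := by
      calc 2 = 2 ^ 1 := by norm_num
        _ ≤ 2 ^ r := Nat.pow_le_pow_right (by norm_num) hr
    have hv := vv_pos hm hN
    have h := (Om_conc hg hy.le (hym.trans hm1).le hv.le r).2 hp hq hα hβ hαβ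
    have hc : 0 < cc y * Real.exp (-(y * aa m (vv m (2 ^ r)))) :=
      mul_pos (cc_pos hy (hym.trans hm1)) (Real.exp_pos _)
    have hO : ∀ p, 0 < Om a y r (vv m (2 ^ r)) p := fun p => by
      unfold Om
      rw [integral_pos_iff_support_of_nonneg (fun g => (zp_pos _ _ _ g).le)
        (zp_dom _ _ _).integrable]
      have : Function.support (zp y (fu (bs a r) (vc r (vv m (2 ^ r)) p.1 p.2)) fun _ => 0) =
          Set.univ := by
        ext f
        simp only [Function.mem_support, Set.mem_univ, iff_true]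
        exact (zp_pos _ _ _ f).ne'
      rw [this]
      simp
    rw [Real.log_mul hc.ne' (hO _).ne', Real.log_mul hc.ne' (hO _).ne',
      Real.log_mul hc.ne' (hO _).ne']
    simp only [smul_eq_mul] at h
    have e : α * (Real.log (cc y * Real.exp (-(y * aa m (vv m (2 ^ r))))) +
          Real.log (Om a y r (vv m (2 ^ r)) p)) +
        β * (Real.log (cc y * Real.exp (-(y * aa m (vv m (2 ^ r))))) +
          Real.log (Om a y r (vv m (2 ^ r)) q)) =
        (α + β) * Real.log (cc y * Real.exp (-(y * aa m (vv m (2 ^ r))))) +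
          (α * Real.log (Om a y r (vv m (2 ^ r)) p) +
          β * Real.log (Om a y r (vv m (2 ^ r)) q)) := by ring
    rw [e, hαβ, one_mul]
    linarith
  have h := le_of_tendsto_of_tendsto ((l1.const_mul α).add (l2.const_mul β)) l3 hle
  rw [hlog, hlog, hlog] at h
  simp only [smul_eq_mul]
  have e : α * (Real.log (M2 a p.1 p.2 y m) + Real.log (∫ l, sw y m (cc m) l)) +
      β * (Real.log (M2 a q.1 q.2 y m) + Real.log (∫ l, sw y m (cc m) l)) =
      α * Real.log (M2 a p.1 p.2 y m) + β * Real.log (M2 a q.1 q.2 y m) +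
      (α + β) * Real.log (∫ l, sw y m (cc m) l) := by ring
  rw [e, hαβ, one_mul] at h
  linarith

end Vale.Agent.P146.H676
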