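import Vale.Agent.P146.H320.Conc

/-!
# P146: concavity of the log-moment in the vector of the variances (helper676)

`fu a u s i = √(u i) a s i`: a Gaussian exponential sum whose coordinates have the variances `u i`,
invariant under a transitive group of sign changes. For `0 ≤ x ≤ 1` the function
`u ↦ log E Z_u ^ x` is concave on `{u | ∀ i, 0 ≤ u i}`.
-/

open MeasureTheory ProbabilityTheory

namespace Vale.Agent.P146.H676

open Vale.Agent.P146 Vale.Agent.P146.H501 Vale.Agent.P146.H863.D29 Vale.Agent.P146.H329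
open Vale.Agent.P146.H329.GA (Gg)
open Vale.Agent.P146.H320.Conc (ext gram_ext Np_const Np_ext Np_pos Np_gauge)
open Set (univ mem_univ)

set_option linter.unusedSectionVars false

variable {ι S : Type} [Fintype ι] [Fintype S] [Nonempty S]

/-- the family with the variances `u` -/
noncomputable def fu (a : S → ι → ℝ) (u : ι → ℝ) (s : S) (i : ι) : ℝ := Real.sqrt (u i) * a s i

/-- the Gram matrix -/
noncomputable def gu (a : S → ι → ℝ) (u : ι → ℝ) (s t : S) : ℝ := ∑ i, u i * (a s i * a t i)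

lemma gram_fu (a : S → ι → ℝ) {u : ι → ℝ} (hu : ∀ i, 0 ≤ u i) (s t : S) :
    ∑ i, fu a u s i * fu a u t i = gu a u s t := by
  unfold fu gu
  refine Finset.sum_congr rfl fun i _ => ?_
  have := Real.mul_self_sqrt (hu i)
  linear_combination (a s i * a t i) * this

variable {a : S → ι → ℝ} {s0 : S}

lemma sq_eq (hg : Gg a a s0) (s : S) (i : ι) : a s i * a s i = a s0 i * a s0 i := by
  obtain ⟨π, χ, χ', h1, h2, h3, h4, h5, h6⟩ := hg.ex s
  have := h5 s0 i
  rw [h1] at this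
  rw [this]
  rcases h3 i with h | h <;> rw [h] <;> ring

lemma gu_diag (hg : Gg a a s0) (u : ι → ℝ) (s : S) : gu a u s s = gu a u s0 s0 := by
  unfold gu
  exact Finset.sum_congr rfl fun i _ => by rw [sq_eq hg]

lemma gu_diag_nonneg {u : ι → ℝ} (hu : ∀ i, 0 ≤ u i) (s : S) : 0 ≤ gu a u s s :=
  Finset.sum_nonneg fun i _ => mul_nonneg (hu i) (mul_self_nonneg _)

/-- the gauge group acts on the extended families -/
lemma gg_fu (hg : Gg a a s0) (u w : ι → ℝ) (c c' : ℝ) :
    Gg (ext (fu a w) c) (ext (fu a u) c') s0 := by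
  refine ⟨fun s => ?_⟩
  obtain ⟨π, χ, χ', h1, h2, h3, h4, h5, h6⟩ := hg.ex s
  refine ⟨π, Sum.elim χ (fun _ => 1), Sum.elim χ (fun _ => 1), h1, h2, ?_, ?_, ?_, ?_⟩
  · rintro (i | _)
    · exact h3 i
    · exact Or.inl rfl
  · rintro (i | _)
    · exact h3 i
    · exact Or.inl rfl
  · intro τ
    rintro (i | _)
    · simp only [ext, fu, Sum.elim_inl]
      rw [h5]
      ring
    · simp only [ext, Sum.elim_inr, one_mul]
  · intro τ
    rintro (i | _)
    · simp only [ext, fu, Sum.elim_inl]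
      rw [h5]
      ring
    · simp only [ext, Sum.elim_inr, one_mul]

/-- **transport between two vectors of variances** -/
theorem transp {p : ℝ} (hp : 0 ≤ p) (hp1 : p ≤ 1) (hg : Gg a a s0) {u w : ι → ℝ}
    (hu : ∀ i, 0 ≤ u i) (hw : ∀ i, 0 ≤ w i) :
    Real.log (Np p (fu a w) s0 fun _ => 0) ≤
      Real.log (Np p (fu a u) s0 fun s => -((1 - p) / 2) * (gu a u s0 s - gu a w s0 s)) -
        (1 - p) / 2 * (gu a u s0 s0 - gu a w s0 s0) := by
  obtain ⟨A, hA⟩ : ∃ A, A = gu a u s0 s0 := ⟨_, rfl⟩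
  obtain ⟨B, hB⟩ : ∃ B, B = gu a w s0 s0 := ⟨_, rfl⟩
  have hA0 : 0 ≤ A := by rw [hA]; exact gu_diag_nonneg hu s0
  have hB0 : 0 ≤ B := by rw [hB]; exact gu_diag_nonneg hw s0
  have hd : ∀ s, ∑ i, ext (fu a w) (Real.sqrt A) s i ^ 2 =
      ∑ j, ext (fu a u) (Real.sqrt B) s j ^ 2 := by
    intro s
    simp only [pow_two]
    rw [gram_ext, gram_ext, gram_fu _ hw, gram_fu _ hu, gu_diag hg w s, gu_diag hg u s, ← hA, ← hB,
      Real.sq_sqrt hA0, Real.sq_sqrt hB0]
    ring
  have h := TR.trans hp hp1 hd (gg_fu hg u w _ _)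
  have e : (fun s => -((1 - p) / 2 *
      (∑ j, ext (fu a u) (Real.sqrt B) s0 j * ext (fu a u) (Real.sqrt B) s j -
        ∑ i, ext (fu a w) (Real.sqrt A) s0 i * ext (fu a w) (Real.sqrt A) s i))) =
      fun s => (-((1 - p) / 2) * (gu a u s0 s - gu a w s0 s)) + (1 - p) / 2 * (A - B) := by
    funext s
    rw [gram_ext, gram_ext, gram_fu _ hw, gram_fu _ hu, Real.sq_sqrt hA0, Real.sq_sqrt hB0]
    ring
  rw [e, Np_const, Np_ext, Np_ext] at h
  have h1 := Real.log_le_log (mul_pos (Real.exp_pos _) (Np_pos p (fu a w) s0 fun _ => 0)) h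
  rw [Real.log_mul (Real.exp_pos _).ne' (Np_pos _ _ _ _).ne', Real.log_exp,
    Real.log_mul (Real.exp_pos _).ne' (mul_pos (Real.exp_pos _) (Np_pos _ _ _ _)).ne',
    Real.log_exp,
    Real.log_mul (Real.exp_pos _).ne' (Np_pos _ _ _ _).ne', Real.log_exp] at h1
  have e1 : ((1 - p) * Real.sqrt A) ^ 2 = (1 - p) ^ 2 * A := by
    rw [mul_pow, Real.sq_sqrt hA0]
  have e2 : ((1 - p) * Real.sqrt B) ^ 2 = (1 - p) ^ 2 * B := by
    rw [mul_pow, Real.sq_sqrt hB0]
  rw [e1, e2] at h1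
  rw [← hA, ← hB]
  nlinarith [h1]

/-- concavity in the planting -/
lemma plant (p : ℝ) (hp : 0 ≤ p) (b : S → ι → ℝ) (s0 : S) :
    ConcaveOn ℝ univ fun ψ : S → ℝ => Real.log (Np p b s0 ψ) :=
  H773.Pk.np_conc hp (b s0) b

lemma gu_lin (a : S → ι → ℝ) (u w : ι → ℝ) (α β : ℝ) (s t : S) :
    gu a (fun i => α * u i + β * w i) s t = α * gu a u s t + β * gu a w s t := by
  unfold gu
  rw [Finset.mul_sum, Finset.mul_sum, ← Finset.sum_add_distrib]
  exact Finset.sum_congr rfl fun i _ => by ring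

/-- **CONCAVITY of the planted log-moment in the variances** -/
theorem conc_Np {p : ℝ} (hp : 0 ≤ p) (hp1 : p ≤ 1) (hg : Gg a a s0) :
    ConcaveOn ℝ {u : ι → ℝ | ∀ i, 0 ≤ u i} fun u => Real.log (Np p (fu a u) s0 fun _ => 0) := by
  refine ⟨fun u hu w hw α β hα hβ _ i => ?_, fun u hu w hw α β hα hβ hαβ => ?_⟩
  · simp only [Pi.add_apply, Pi.smul_apply, smul_eq_mul]
    have := hu i
    have := hw i
    positivity
  obtain ⟨v, hv⟩ : ∃ v : ι → ℝ, v = fun i => α * u i + β * w i := ⟨_, rfl⟩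
  have hv0 : ∀ i, 0 ≤ v i := by
    intro i
    rw [hv]
    have := hu i
    have := hw i
    positivity
  have ev : α • u + β • w = v := by
    rw [hv]
    rfl
  rw [ev]
  have q1 := transp hp hp1 hg hv0 hu
  have q2 := transp hp hp1 hg hv0 hw
  have hc := (plant p hp (fu a v) s0).2 (mem_univ (fun s => -((1 - p) / 2) *
    (gu a v s0 s - gu a u s0 s))) (mem_univ (fun s => -((1 - p) / 2) *
    (gu a v s0 s - gu a w s0 s))) hα hβ hαβ
  have e : (α • (fun s => -((1 - p) / 2) * (gu a v s0 s - gu a u s0 s)) +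
      β • fun s => -((1 - p) / 2) * (gu a v s0 s - gu a w s0 s)) = fun _ : S => (0 : ℝ) := by
    funext s
    simp only [Pi.add_apply, Pi.smul_apply, smul_eq_mul]
    have h1 := gu_lin a u w α β s0 s
    rw [← hv] at h1
    linear_combination (-((1 - p) / 2)) * h1 - ((1 - p) / 2) * gu a v s0 s * hαβ
  rw [e] at hc
  simp only [smul_eq_mul] at hc ⊢
  have e1 := mul_le_mul_of_nonneg_left q1 hα
  have e2 := mul_le_mul_of_nonneg_left q2 hβ
  have h1 := gu_lin a u w α β s0 s0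
  rw [← hv] at h1
  have e4 : α * (gu a v s0 s0 - gu a u s0 s0) + β * (gu a v s0 s0 - gu a w s0 s0) = 0 := by
    linear_combination gu a v s0 s0 * hαβ + h1
  have e5 : α * ((1 - p) / 2 * (gu a v s0 s0 - gu a u s0 s0)) +
      β * ((1 - p) / 2 * (gu a v s0 s0 - gu a w s0 s0)) = 0 := by
    linear_combination ((1 - p) / 2) * e4
  linarith

/-- the gauge group of the family -/
lemma gg_self (hg : Gg a a s0) (u : ι → ℝ) : Gg (fu a u) (fu a u) s0 := by
  refine ⟨fun s => ?_⟩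
  obtain ⟨π, χ, χ', h1, h2, h3, h4, h5, h6⟩ := hg.ex s
  refine ⟨π, χ, χ, h1, h2, h3, h3, ?_, ?_⟩ <;>
  · intro τ i
    simp only [fu]
    rw [h5]
    ring

/-- the moment is a multiple of the planted moment -/
lemma moment_eq (hg : Gg a a s0) (x : ℝ) (u : ι → ℝ) :
    ∫ g, zp x (fu a u) (fun _ => 0) g ∂(gpi ι) =
      Fintype.card S * Np (1 - x) (fu a u) s0 (fun _ => 0) := by
  simp_rw [zp_split x (fu a u)]
  rw [int_sum _ fun s _ => np_dom (1 - x) (fu a u) s (fun _ => 0)]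
  have : ∀ s : S, ∫ g, Real.exp (∑ i, fu a u s i * g i) *
      zp (-(1 - x)) (fu a u) (fun _ => 0) g ∂(gpi ι) =
      Np (1 - x) (fu a u) s0 (fun _ => 0) := fun s => Np_gauge (gg_self hg u) (1 - x) s
  rw [Finset.sum_congr rfl fun s _ => this s, Finset.sum_const, nsmul_eq_mul, Finset.card_univ]

/-- **CONCAVITY of the log-moment in the vector of the variances** -/
theorem conc_moment {x : ℝ} (hx : 0 ≤ x) (hx1 : x ≤ 1) (hg : Gg a a s0) :
    ConcaveOn ℝ {u : ι → ℝ | ∀ i, 0 ≤ u i} fun u =>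
      Real.log (∫ g, zp x (fu a u) (fun _ => 0) g ∂(gpi ι)) := by
  have h := conc_Np (p := 1 - x) (by linarith) (by linarith) hg
  have e : (fun u => Real.log (∫ g, zp x (fu a u) (fun _ => 0) g ∂(gpi ι))) =
      fun u => Real.log (Fintype.card S) + Real.log (Np (1 - x) (fu a u) s0 fun _ => 0) := by
    funext u
    rw [moment_eq hg, Real.log_mul (by
      have := Fintype.card_pos (α := S)
      positivity) (Np_pos _ _ _ _).ne']
  rw [e]
  exact (concaveOn_const _ h.1).add h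

end Vale.Agent.P146.H676
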